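import Mathlib.Data.Set.Finite.Lattice
import Mathlib.Data.Fintype.EquivFin
import Mathlib.Algebra.BigOperators.Group.List.Basic
import Mathlib.Data.Set.Card
import Mathlib.Algebra.Group.Submonoid.Membership
import Mathlib.Data.Fintype.Pigeonhole
import Mathlib.Tactic.Ring
import Mathlib.Data.ZMod.Basic
import Mathlib.Data.Set.Finite.List
import Mathlib.Logic.Function.Iterate
import Mathlib.Tactic.Abel
import Mathlib.Tactic.Linarith
import Mathlib.Data.List.Infix
import Mathlib.Computability.DFA
import Mathlib.Algebra.BigOperators.Pi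
import Mathlib.Logic.Equiv.Fin.Basic
import Mathlib.Data.Fintype.Card
import Mathlib.Data.Nat.Factorial.Basic
import Mathlib.Data.List.OfFn
import Vale.Agent.P329.Defs
import Vale.Agent.P329.Slow.Def

set_option linter.all false

section

section

namespace Vale.Agent.P329

/-- `SH k L`: the language `L` is denoted by an expression of star height at most `k`. -/
def SH (k : ℕ) {α : Type} (L : Set (List α)) : Prop :=
  ∃ e : GRE α, e.height ≤ k ∧ e.lang = L

/-- concatenation -/
def cat {α : Type} (A B : Set (List α)) : Set (List α) :=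
  {w | ∃ u ∈ A, ∃ v ∈ B, u ++ v = w}

/-- Kleene star -/
def kst {α : Type} (A : Set (List α)) : Set (List α) :=
  {w | ∃ L : List (List α), (∀ u ∈ L, u ∈ A) ∧ L.flatten = w}

variable {α : Type} {k : ℕ} {A B C : Set (List α)}

theorem mem_cat {w : List α} : w ∈ cat A B ↔ ∃ u ∈ A, ∃ v ∈ B, u ++ v = w := Iff.rfl

theorem mem_kst {w : List α} :
    w ∈ kst A ↔ ∃ L : List (List α), (∀ u ∈ L, u ∈ A) ∧ L.flatten = w := Iff.rfl

namespace SH

theorem mono {k l : ℕ} (h : k ≤ l) (hA : SH k A) : SH l A := by
  obtain ⟨e, he, rfl⟩ := hA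
  exact ⟨e, he.trans h, rfl⟩

theorem of_zero (hA : SH 0 A) : SH k A := hA.mono (Nat.zero_le _)

theorem empty : SH k (∅ : Set (List α)) := ⟨.zero, Nat.zero_le _, rfl⟩

theorem eps : SH k ({[]} : Set (List α)) := ⟨.one, Nat.zero_le _, rfl⟩

theorem single (a : α) : SH k ({[a]} : Set (List α)) := ⟨.letter a, Nat.zero_le _, rfl⟩

theorem compl (hA : SH k A) : SH k Aᶜ := by
  obtain ⟨e, he, rfl⟩ := hA
  exact ⟨.compl e, he, rfl⟩

theorem univ : SH k (Set.univ : Set (List α)) := by
  have := (empty (α := α) (k := k)).compl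
  simpa using this

theorem union (hA : SH k A) (hB : SH k B) : SH k (A ∪ B) := by
  obtain ⟨e, he, rfl⟩ := hA
  obtain ⟨f, hf, rfl⟩ := hB
  exact ⟨.union e f, max_le he hf, rfl⟩

theorem inter (hA : SH k A) (hB : SH k B) : SH k (A ∩ B) := by
  have := (hA.compl.union hB.compl).compl
  rwa [Set.compl_union, compl_compl, compl_compl] at this

theorem diff (hA : SH k A) (hB : SH k B) : SH k (A \ B) := by
  rw [Set.sdiff_eq]; exact hA.inter hB.compl

theorem cat (hA : SH k A) (hB : SH k B) : SH k (cat A B) := by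
  obtain ⟨e, he, rfl⟩ := hA
  obtain ⟨f, hf, rfl⟩ := hB
  exact ⟨.concat e f, max_le he hf, rfl⟩

theorem kst (hA : SH k A) : SH (k + 1) (kst A) := by
  obtain ⟨e, he, rfl⟩ := hA
  exact ⟨.star e, Nat.succ_le_succ he, rfl⟩

theorem biUnion {ι : Type*} (s : Finset ι) {L : ι → Set (List α)} (h : ∀ i ∈ s, SH k (L i)) :
    SH k (⋃ i ∈ s, L i) := by
  classical
  induction s using Finset.induction_on with
  | empty => simpa using empty
  | insert a s _ ih =>
    have : (⋃ i ∈ insert a s, L i) = L a ∪ ⋃ i ∈ s, L i := by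
      ext w; simp
    rw [this]
    exact (h a (Finset.mem_insert_self _ _)).union
      (ih fun i hi => h i (Finset.mem_insert_of_mem hi))

theorem iUnion {ι : Type*} [Finite ι] {L : ι → Set (List α)} (h : ∀ i, SH k (L i)) :
    SH k (⋃ i, L i) := by
  classical
  have := Fintype.ofFinite ι
  have := biUnion (k := k) Finset.univ (L := L) fun i _ => h i
  simpa using this

theorem iInter {ι : Type*} [Finite ι] {L : ι → Set (List α)} (h : ∀ i, SH k (L i)) :
    SH k (⋂ i, L i) := by
  have := (iUnion fun i => (h i).compl).compl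
  rwa [Set.compl_iUnion, Set.iInter_congr fun i => compl_compl _] at this

theorem iUnion_prop {p : Prop} {L : Set (List α)} (h : p → SH k L) :
    SH k (⋃ _ : p, L) := by
  by_cases hp : p
  · simpa [hp] using h hp
  · simpa [hp] using empty

/-- words all of whose letters satisfy `p` -/
theorem all [Finite α] (p : α → Prop) : SH k {w : List α | ∀ x ∈ w, p x} := by
  have h1 : SH k (⋃ a : α, ⋃ _ : ¬ p a, P329.cat Set.univ (P329.cat {[a]} Set.univ)) :=
    iUnion fun a => iUnion_prop fun _ => univ.cat ((single a).cat univ)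
  have h2 := h1.compl
  convert h2 using 1
  ext w
  simp only [Set.compl_iUnion, Set.mem_iInter, Set.mem_compl_iff, mem_cat]
  constructor
  · rintro h a ha ⟨u, -, v', ⟨u', hu', v, -, rfl⟩, rfl⟩
    rw [Set.mem_singleton_iff] at hu'
    subst hu'
    exact ha (h a (by simp))
  · intro h x hx
    by_contra hpx
    obtain ⟨u, v, rfl⟩ := List.append_of_mem hx
    exact h x hpx ⟨u, trivial, [x] ++ v, ⟨[x], rfl, v, trivial, rfl⟩, rfl⟩

end SH

end Vale.Agent.P329
end
end

section

section

namespace Vale.Agent.P329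

/-- A monoid is aperiodic if the powers of every element are eventually constant. -/
def Aper (M : Type) [Monoid M] : Prop := ∀ x : M, ∃ n : ℕ, x ^ (n + 1) = x ^ n

/-- The local divisor of a monoid at an element. -/
def LD {M : Type} [Monoid M] (m : M) : Type :=
  {x : M // (∃ y, x = y * m) ∧ (∃ y, x = m * y)}

namespace LD

variable {M : Type} [Monoid M] {m : M}

noncomputable instance : Mul (LD m) where
  mul x y := ⟨x.2.1.choose * y.1, by
    obtain ⟨y'', hy⟩ := y.2.1
    exact ⟨x.2.1.choose * y'', by rw [hy, mul_assoc]⟩, by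
    obtain ⟨y', hy⟩ := y.2.2
    obtain ⟨x'', hx⟩ := x.2.2
    have h := x.2.1.choose_spec
    exact ⟨x'' * y', by rw [hy, ← mul_assoc, ← h, hx, mul_assoc]⟩⟩

theorem mul_val_right (x y : LD m) {y' : M} (hy : y.1 = m * y') : (x * y).1 = x.1 * y' := by
  change x.2.1.choose * y.1 = _
  rw [hy, ← mul_assoc, ← x.2.1.choose_spec]

theorem mul_val_left (x y : LD m) {x' : M} (hx : x.1 = x' * m) : (x * y).1 = x' * y.1 := by
  obtain ⟨y', hy⟩ := y.2.2
  rw [mul_val_right x y hy, hx, hy, mul_assoc]

instance : One (LD m) := ⟨⟨m, ⟨1, by simp⟩, ⟨1, by simp⟩⟩⟩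

theorem one_val : (1 : LD m).1 = m := rfl

noncomputable instance : Monoid (LD m) where
  mul_assoc x y z := by
    apply Subtype.ext
    obtain ⟨x', hx⟩ := x.2.1
    obtain ⟨z', hz⟩ := z.2.2
    rw [mul_val_right _ z hz, mul_val_left x y hx, mul_val_left x (y * z) hx,
      mul_val_right y z hz, mul_assoc]
  one_mul x := by
    apply Subtype.ext
    rw [mul_val_left 1 x (x' := 1) (by simp [one_val]), one_mul]
  mul_one x := by
    apply Subtype.ext
    rw [mul_val_right x 1 (y' := 1) (by simp [one_val]), mul_one]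

theorem pow_val (x : LD m) {x' : M} (hx : x.1 = x' * m) (n : ℕ) : (x ^ n).1 = x' ^ n * m := by
  induction n with
  | zero => simp [one_val]
  | succ n ih => rw [pow_succ', mul_val_left x _ hx, ih, pow_succ', mul_assoc]

theorem aper (hM : Aper M) : Aper (LD m) := by
  intro x
  obtain ⟨x', hx⟩ := x.2.1
  obtain ⟨n, hn⟩ := hM x'
  exact ⟨n, Subtype.ext (by rw [pow_val x hx, pow_val x hx, hn])⟩

instance [Finite M] : Finite (LD m) := Subtype.finite

theorem card_lt [Finite M] (hM : Aper M) (hm : m ≠ 1) : Nat.card (LD m) < Nat.card M := by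
  have h1 : ¬ ((∃ y, (1 : M) = y * m) ∧ (∃ y, (1 : M) = m * y)) := by
    rintro ⟨-, y, hy⟩
    obtain ⟨n, hn⟩ := hM m
    apply hm
    have hpow : ∀ k : ℕ, m ^ k * y ^ k = 1 := by
      intro k
      induction k with
      | zero => simp
      | succ k ih =>
        rw [pow_succ, pow_succ', mul_assoc, ← mul_assoc m y, ← hy, one_mul, ih]
    have h2 : m ^ (n + 1) * y ^ n = m := by
      rw [pow_succ', mul_assoc, hpow, mul_one]
    rw [← h2, hn, hpow]
  have h3 : (Set.univ : Set M).ncard = Nat.card M := Set.ncard_univ M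
  rw [← h3]
  have h4 : Nat.card (LD m) =
      ({x : M | (∃ y, x = y * m) ∧ (∃ y, x = m * y)} : Set M).ncard := rfl
  rw [h4]
  apply Set.ncard_lt_ncard _ (Set.toFinite _)
  rw [Set.ssubset_univ_iff]
  intro h
  have : (1 : M) ∈ ({x : M | (∃ y, x = y * m) ∧ (∃ y, x = m * y)} : Set M) := by
    rw [h]; trivial
  exact h1 this

/-- the letter map into the local divisor -/
def letter (m t : M) : LD m :=
  ⟨m * t * m, ⟨m * t, rfl⟩, ⟨t * m, by rw [mul_assoc]⟩⟩

theorem prod_letter (T : List M) :
    ((T.map (letter m)).prod).1 = m * (T.map (fun t => t * m)).prod := by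
  induction T with
  | nil => simp [one_val]
  | cons t T ih =>
    rw [List.map_cons, List.prod_cons, mul_val_right _ _ ih]
    simp [letter, mul_assoc]

end LD

section decomposition

variable {α : Type}

/-- glue blocks, each followed by the letter `c` -/
def glue (c : α) (L : List (List α)) : List α := (L.map (fun v => v ++ [c])).flatten

@[simp] theorem glue_nil (c : α) : glue c [] = [] := rfl
@[simp] theorem glue_cons (c : α) (v : List α) (L : List (List α)) :
    glue c (v :: L) = v ++ c :: glue c L := by simp [glue]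
theorem glue_append (c : α) (L L' : List (List α)) :
    glue c (L ++ L') = glue c L ++ glue c L' := by simp [glue]

theorem append_cons_inj {c : α} {u v s t : List α} (hu : c ∉ u) (hv : c ∉ v)
    (h : u ++ c :: s = v ++ c :: t) : u = v ∧ s = t := by
  induction u generalizing v with
  | nil =>
    cases v with
    | nil => simpa using h
    | cons x v =>
      simp only [List.nil_append, List.cons_append, List.cons.injEq] at h
      exact absurd (h.1 ▸ List.mem_cons_self) hv
  | cons x u ih =>
    cases v with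
    | nil =>
      simp only [List.nil_append, List.cons_append, List.cons.injEq] at h
      exact absurd (h.1 ▸ List.mem_cons_self) hu
    | cons y v =>
      simp only [List.cons_append, List.cons.injEq] at h
      obtain ⟨rfl, h⟩ := h
      have := ih (v := v) (fun h' => hu (List.mem_cons_of_mem _ h'))
        (fun h' => hv (List.mem_cons_of_mem _ h')) h
      exact ⟨by rw [this.1], this.2⟩

theorem glue_inj {c : α} {L L' : List (List α)} (hL : ∀ v ∈ L, c ∉ v) (hL' : ∀ v ∈ L', c ∉ v)
    (h : glue c L = glue c L') : L = L' := by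
  induction L generalizing L' with
  | nil =>
    cases L' with
    | nil => rfl
    | cons v L' => simp at h
  | cons u L ih =>
    cases L' with
    | nil => simp at h
    | cons v L' =>
      rw [glue_cons, glue_cons] at h
      obtain ⟨rfl, h'⟩ := append_cons_inj (hL u (by simp)) (hL' v (by simp)) h
      rw [ih (fun v hv => hL v (by simp [hv])) (fun v hv => hL' v (by simp [hv])) h']

theorem exists_glue [DecidableEq α] (c : α) (B : Finset α) (w : List α) (hw : ∀ x ∈ w, x ∈ B) :
    ∃ (L : List (List α)) (v : List α), (∀ u ∈ L, ∀ x ∈ u, x ∈ B.erase c) ∧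
      (∀ x ∈ v, x ∈ B.erase c) ∧ glue c L ++ v = w := by
  induction w with
  | nil => exact ⟨[], [], by simp, by simp, rfl⟩
  | cons a w ih =>
    obtain ⟨L, v, hL, hv, rfl⟩ := ih fun x hx => hw x (by simp [hx])
    by_cases hac : a = c
    · subst hac
      refine ⟨[] :: L, v, ?_, hv, by simp⟩
      intro u hu
      rcases List.mem_cons.1 hu with rfl | hu
      · simp
      · exact hL u hu
    · have haB : a ∈ B.erase c := Finset.mem_erase.2 ⟨hac, hw a (by simp)⟩
      cases L with
      | nil =>
        refine ⟨[], a :: v, by simp, ?_, by simp⟩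
        intro x hx
        rcases List.mem_cons.1 hx with rfl | hx
        · exact haB
        · exact hv x hx
      | cons b L =>
        refine ⟨(a :: b) :: L, v, ?_, hv, by simp⟩
        intro u hu
        rcases List.mem_cons.1 hu with rfl | hu
        · intro x hx
          rcases List.mem_cons.1 hx with rfl | hx
          · exact haB
          · exact hL b (by simp) x hx
        · exact hL u (by simp [hu])

end decomposition

/-- Pull back a language over `M` along the block decomposition. -/
def pull {α M : Type} [Monoid M] (f : α → M) (c : α) (P : α → Prop) (R : Set (List M)) :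
    Set (List α) :=
  {w | ∃ L : List (List α), (∀ v ∈ L, ∀ x ∈ v, P x) ∧ glue c L = w ∧
    L.map (fun v => (v.map f).prod) ∈ R}

theorem pull_SH {α M : Type} [Finite α] [Monoid M] (f : α → M) (c : α) (P : α → Prop)
    (hc : ¬ P c)
    (hB : ∀ p : M, SH 0 {w : List α | (∀ x ∈ w, P x) ∧ (w.map f).prod = p})
    (hD : SH 0 (pull f c P Set.univ))
    (e : GRE M) (he : e.height ≤ 0) : SH 0 (pull f c P e.lang) := by
  have hcv : ∀ {L : List (List α)}, (∀ v ∈ L, ∀ x ∈ v, P x) → ∀ v ∈ L, c ∉ v :=
    fun hL v hv hcv => hc (hL v hv c hcv)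
  induction e with
  | zero =>
    convert SH.empty (α := α) (k := 0) using 1
    ext w; simp [pull, GRE.lang]
  | one =>
    convert SH.eps (α := α) (k := 0) using 1
    ext w
    constructor
    · rintro ⟨L, -, rfl, h⟩
      have h' : L = [] := by simpa [GRE.lang] using h
      subst h'
      rfl
    · rintro rfl
      exact ⟨[], by simp, rfl, by simp [GRE.lang]⟩
  | letter t =>
    convert (hB t).cat (SH.single (k := 0) c) using 1
    ext w
    constructor
    · rintro ⟨L, hL, rfl, h⟩
      have h' : L.map (fun v => (v.map f).prod) = [t] := by simpa [GRE.lang] using h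
      obtain ⟨v, rfl, hv⟩ := List.map_eq_singleton_iff.1 h'
      exact ⟨v, ⟨hL v (by simp), hv⟩, [c], rfl, by simp⟩
    · rintro ⟨v, ⟨hv, hvt⟩, c', rfl, rfl⟩
      exact ⟨[v], by simpa using hv, by simp, by simp [GRE.lang, hvt]⟩
  | union e₁ e₂ ih₁ ih₂ =>
    have h := (ih₁ (le_trans (le_max_left _ _) he)).union (ih₂ (le_trans (le_max_right _ _) he))
    convert h using 1
    ext w
    constructor
    · rintro ⟨L, hL, hw, h | h⟩
      · exact Or.inl ⟨L, hL, hw, h⟩
      · exact Or.inr ⟨L, hL, hw, h⟩
    · rintro (⟨L, hL, hw, h⟩ | ⟨L, hL, hw, h⟩)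
      · exact ⟨L, hL, hw, Or.inl h⟩
      · exact ⟨L, hL, hw, Or.inr h⟩
  | concat e₁ e₂ ih₁ ih₂ =>
    have h := (ih₁ (le_trans (le_max_left _ _) he)).cat (ih₂ (le_trans (le_max_right _ _) he))
    convert h using 1
    ext w
    constructor
    · rintro ⟨L, hL, rfl, u, hu, v, hv, huv⟩
      obtain ⟨L₁, L₂, rfl, rfl, rfl⟩ := List.map_eq_append_iff.1 huv.symm
      exact ⟨_, ⟨L₁, fun v hv => hL v (by simp [hv]), rfl, hu⟩, _,
        ⟨L₂, fun v hv => hL v (by simp [hv]), rfl, hv⟩, (glue_append _ _ _).symm⟩
    · rintro ⟨_, ⟨L₁, hL₁, rfl, hu⟩, _, ⟨L₂, hL₂, rfl, hv⟩, rfl⟩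
      refine ⟨L₁ ++ L₂, ?_, glue_append _ _ _, _, hu, _, hv, by simp⟩
      intro v hv
      rcases List.mem_append.1 hv with hv | hv
      · exact hL₁ v hv
      · exact hL₂ v hv
  | compl e₁ ih₁ =>
    have h := hD.inter (ih₁ he).compl
    convert h using 1
    ext w
    constructor
    · rintro ⟨L, hL, hw, h⟩
      refine ⟨⟨L, hL, hw, trivial⟩, ?_⟩
      rintro ⟨L', hL', hw', h'⟩
      have := glue_inj (hcv hL) (hcv hL') (hw.trans hw'.symm)
      subst this
      exact h h'
    · rintro ⟨⟨L, hL, hw, -⟩, h⟩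
      exact ⟨L, hL, hw, fun h' => h ⟨L, hL, hw, h'⟩⟩
  | star e₁ _ => simp [GRE.height] at he

theorem prod_map_glue {α M : Type} [Monoid M] (f : α → M) (c : α) (L : List (List α)) :
    ((glue c L).map f).prod
      = ((L.map (fun v => (v.map f).prod)).map (fun t => t * f c)).prod := by
  induction L with
  | nil => simp
  | cons v L ih =>
    simp [glue_cons, ih, mul_assoc]

theorem schutz_aux (n : ℕ) : ∀ (α : Type) [Finite α] (M : Type) [Monoid M] [Finite M],
    Nat.card M = n → Aper M → ∀ (f : α → M) (B : Finset α) (p : M),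
      SH 0 {w : List α | (∀ x ∈ w, x ∈ B) ∧ (w.map f).prod = p} := by
  classical
  induction n using Nat.strong_induction_on with
  | _ n IH =>
    intro α _ M _ _ hcard hM f B
    induction B using Finset.strongInduction with
    | _ B IHB =>
      intro p
      by_cases hB : ∀ b ∈ B, f b = 1
      · by_cases hp : p = 1
        · convert SH.all (k := 0) (fun x : α => x ∈ B) using 1
          ext w
          constructor
          · exact fun h => h.1
          · intro h
            refine ⟨h, ?_⟩
            rw [hp]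
            apply List.prod_eq_one
            intro x hx
            obtain ⟨a, ha, rfl⟩ := List.mem_map.1 hx
            exact hB a (h a ha)
        · convert SH.empty (α := α) (k := 0) using 1
          ext w
          simp only [Set.mem_empty_iff_false, iff_false]
          rintro ⟨h, h'⟩
          apply hp
          rw [← h']
          apply List.prod_eq_one
          intro x hx
          obtain ⟨a, ha, rfl⟩ := List.mem_map.1 hx
          exact hB a (h a ha)
      · push Not at hB
        obtain ⟨c, hcB, hc⟩ := hB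
        have hlt : B.erase c ⊂ B := Finset.erase_ssubset hcB
        have hsub := IHB (B.erase c) hlt
        have hD : SH 0 (pull f c (fun x => x ∈ B.erase c) Set.univ) := by
          have h := (SH.eps (α := α) (k := 0)).union
            ((SH.all (k := 0) (fun x : α => x ∈ B)).cat (SH.single (k := 0) c))
          convert h using 1
          ext w
          constructor
          · rintro ⟨L, hL, rfl, -⟩
            rcases List.eq_nil_or_concat L with rfl | ⟨L', v, rfl⟩
            · exact Or.inl rfl
            · refine Or.inr ⟨glue c L' ++ v, ?_, [c], rfl, by simp [glue_append]⟩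
              intro x hx
              have hx' : x ∈ glue c (L' ++ [v]) := by
                rw [glue_append]; simp only [glue_cons, glue_nil, List.mem_append] at hx ⊢
                rcases hx with hx | hx
                · exact Or.inl hx
                · exact Or.inr (Or.inl hx)
              simp only [glue, List.mem_flatten, List.mem_map] at hx'
              obtain ⟨_, ⟨u, hu, rfl⟩, hxu⟩ := hx'
              rcases List.mem_append.1 hxu with hxu | hxu
              · exact Finset.mem_of_mem_erase (hL u (by simpa using hu) x hxu)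
              · rw [List.mem_singleton.1 hxu]; exact hcB
          · rintro (rfl | ⟨u, hu, _, rfl, rfl⟩)
            · exact ⟨[], by simp, rfl, trivial⟩
            · obtain ⟨L, v, hL, hv, rfl⟩ := exists_glue c B u hu
              refine ⟨L ++ [v], ?_, by simp [glue_append], trivial⟩
              intro u hu
              rcases List.mem_append.1 hu with hu | hu
              · exact hL u hu
              · rw [List.mem_singleton.1 hu]; exact hv
        -- the middle part
        have hmid : ∀ q : M, SH 0 {d : List α | d ∈ pull f c (fun x => x ∈ B.erase c) Set.univ ∧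
            f c * (d.map f).prod = q} := by
          intro q
          by_cases hq : (∃ y, q = y * f c) ∧ (∃ y, q = f c * y)
          · have h1 := IH (Nat.card (LD (f c))) (hcard ▸ LD.card_lt hM hc) M (LD (f c)) rfl
              (LD.aper hM)
            have : Fintype M := Fintype.ofFinite M
            have h2 := h1 (LD.letter (f c)) Finset.univ ⟨q, hq⟩
            obtain ⟨e, he, hel⟩ := h2
            have h3 := pull_SH f c (fun x => x ∈ B.erase c) (by simp) hsub hD e he
            convert h3 using 1
            ext w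
            constructor
            · rintro ⟨⟨L, hL, rfl, -⟩, h⟩
              refine ⟨L, hL, rfl, ?_⟩
              rw [hel]
              refine ⟨by simp, Subtype.ext ?_⟩
              rw [LD.prod_letter, ← prod_map_glue]
              exact h
            · rintro ⟨L, hL, rfl, h⟩
              refine ⟨⟨L, hL, rfl, trivial⟩, ?_⟩
              rw [hel] at h
              have h' := congrArg Subtype.val h.2
              rw [LD.prod_letter, ← prod_map_glue] at h'
              exact h'
          · convert SH.empty (α := α) (k := 0) using 1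
            ext w
            simp only [Set.mem_empty_iff_false, iff_false]
            rintro ⟨⟨L, hL, rfl, -⟩, h⟩
            apply hq
            have h' := LD.prod_letter (m := f c) (L.map (fun v => (v.map f).prod))
            rw [← prod_map_glue, h] at h'
            rw [← h']
            exact (((L.map (fun v => (v.map f).prod)).map (LD.letter (f c))).prod).2
        have h := (hsub p).union (SH.iUnion (k := 0) (ι := M × M × M)
          (L := fun t => ⋃ _ : t.1 * (t.2.1 * t.2.2) = p,
            P329.cat {w : List α | (∀ x ∈ w, x ∈ B.erase c) ∧ (w.map f).prod = t.1}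
              (P329.cat {[c]} (P329.cat {d : List α | d ∈ pull f c (fun x => x ∈ B.erase c)
                Set.univ ∧ f c * (d.map f).prod = t.2.1}
                {w : List α | (∀ x ∈ w, x ∈ B.erase c) ∧ (w.map f).prod = t.2.2})))
          fun t => SH.iUnion_prop fun _ => (hsub _).cat
            ((SH.single c).cat ((hmid _).cat (hsub _))))
        convert h using 1
        ext w
        constructor
        · rintro ⟨hw, hwp⟩
          obtain ⟨L, v, hL, hv, rfl⟩ := exists_glue c B w hw
          cases L with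
          | nil =>
            left
            exact ⟨by simpa using hv, by simpa using hwp⟩
          | cons u L =>
            right
            simp only [Set.mem_iUnion]
            refine ⟨((u.map f).prod, f c * ((glue c L).map f).prod, (v.map f).prod), ?_, ?_⟩
            · rw [← hwp]; simp [mul_assoc]
            · refine ⟨u, ⟨hL u (by simp), rfl⟩, _, ⟨[c], rfl, _, ⟨glue c L,
                ⟨⟨L, fun v hv => hL v (by simp [hv]), rfl, trivial⟩, rfl⟩, v, ⟨hv, rfl⟩, rfl⟩,
                rfl⟩, by simp⟩
        · rintro (⟨hw, hwp⟩ | h)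
          · exact ⟨fun x hx => Finset.mem_of_mem_erase (hw x hx), hwp⟩
          · simp only [Set.mem_iUnion] at h
            obtain ⟨⟨p₁, p₂, p₃⟩, hp, u, ⟨hu, hup⟩, _, ⟨_, rfl, _, ⟨d, ⟨⟨L, hL, rfl, -⟩, hd⟩, v,
              ⟨hv, hvp⟩, rfl⟩, rfl⟩, rfl⟩ := h
            constructor
            · intro x hx
              simp only [List.mem_append, List.mem_cons, List.not_mem_nil, or_false, glue,
                List.mem_flatten, List.mem_map] at hx
              rcases hx with hx | hx | ⟨_, ⟨u', hu', rfl⟩, hx⟩ | hx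
              · exact Finset.mem_of_mem_erase (hu x hx)
              · rw [hx]; exact hcB
              · rcases List.mem_append.1 hx with hx | hx
                · exact Finset.mem_of_mem_erase (hL u' hu' x hx)
                · rw [List.mem_singleton.1 hx]; exact hcB
              · exact Finset.mem_of_mem_erase (hv x hx)
            · rw [← hp]
              simp only at hup hd hvp ⊢
              rw [← hup, ← hd, ← hvp]
              simp [mul_assoc]

/-- Schutzenberger: languages recognized by finite aperiodic monoids have star height zero. -/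
theorem schutz {α : Type} [Finite α] {M : Type} [Monoid M] [Finite M] (hM : Aper M)
    (f : α → M) (p : M) : SH 0 {w : List α | (w.map f).prod = p} := by
  have : Fintype α := Fintype.ofFinite α
  have h := schutz_aux (Nat.card M) α M rfl hM f Finset.univ p
  simpa using h

end Vale.Agent.P329
end
end

section

section

namespace Vale.Agent.P329

/-- Transformations of a set, composed from left to right. -/
structure Tr (σ : Type) : Type where
  f : σ → σ

namespace Tr

variable {σ : Type}

theorem ext' {a b : Tr σ} (h : ∀ s, a.f s = b.f s) : a = b := by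
  cases a; cases b; congr 1; funext s; exact h s

instance : Monoid (Tr σ) where
  mul a b := ⟨fun s => b.f (a.f s)⟩
  one := ⟨fun s => s⟩
  mul_assoc _ _ _ := rfl
  one_mul _ := rfl
  mul_one _ := rfl

theorem mul_f (a b : Tr σ) (s : σ) : (a * b).f s = b.f (a.f s) := rfl
theorem one_f (s : σ) : (1 : Tr σ).f s = s := rfl

instance [Finite σ] : Finite (Tr σ) :=
  Finite.of_injective (fun a : Tr σ => a.f) (fun _ _ h => ext' fun s => congrFun h s)

theorem pow_f (a : Tr σ) (n : ℕ) (s : σ) : (a ^ n).f s = a.f^[n] s := by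
  induction n generalizing s with
  | zero => rw [pow_zero]; rfl
  | succ n ih => rw [pow_succ', mul_f, Function.iterate_succ_apply, ih]

end Tr

/-- A finite deterministic automaton in which no word permutes states nontrivially
accepts a star-free language. -/
theorem dfa_sf {α σ : Type} [Finite α] [Finite σ] (δ : σ → α → σ)
    (h : ∀ (z : List α) (s : σ) (n : ℕ), 0 < n →
      (fun t => z.foldl δ t)^[n] s = s → z.foldl δ s = s)
    (s₀ : σ) (P : σ → Prop) : SH 0 {w : List α | P (w.foldl δ s₀)} := by
  classical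
  let F : α → Tr σ := fun a => ⟨fun s => δ s a⟩
  let f : α → Submonoid.closure (Set.range F) := fun a =>
    ⟨F a, Submonoid.subset_closure ⟨a, rfl⟩⟩
  have hprod : ∀ (w : List α) (s : σ), (w.map F).prod.f s = w.foldl δ s := by
    intro w
    induction w with
    | nil => intro s; rfl
    | cons a w ih =>
      intro s
      rw [List.map_cons, List.prod_cons, Tr.mul_f, List.foldl_cons]
      exact ih (δ s a)
  have hA : Aper (Submonoid.closure (Set.range F)) := by
    intro x
    obtain ⟨L, hL, hx⟩ := Submonoid.exists_list_of_mem_closure x.2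
    have hz : ∃ z : List α, z.map F = L := by
      clear hx
      induction L with
      | nil => exact ⟨[], rfl⟩
      | cons a L ih =>
        obtain ⟨z, hz⟩ := ih fun y hy => hL y (List.mem_cons_of_mem _ hy)
        obtain ⟨b, hb⟩ := hL a List.mem_cons_self
        exact ⟨b :: z, by rw [List.map_cons, hz, hb]⟩
    obtain ⟨z, rfl⟩ := hz
    obtain ⟨i, j, hne, hij⟩ := Finite.exists_ne_map_eq_of_infinite
      (fun n : ℕ => x ^ n)
    have key : ∀ i j : ℕ, i < j → x ^ i = x ^ j → ∃ n : ℕ, x ^ (n + 1) = x ^ n := by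
      intro i j hlt hij
      refine ⟨i, ?_⟩
      apply Subtype.ext
      apply Tr.ext'
      intro s
      have e1 : ∀ (n : ℕ) (s : σ), ((x ^ n : Submonoid.closure (Set.range F)) : Tr σ).f s =
          (fun t => z.foldl δ t)^[n] s := by
        intro n s
        rw [SubmonoidClass.coe_pow, Tr.pow_f, ← hx]
        have : (z.map F).prod.f = fun t => z.foldl δ t := by
          funext t; exact hprod z t
        rw [this]
      have e2 := e1 i s
      have e3 := e1 j s
      rw [← hij] at e3
      have e4 := e1 (i + 1) s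
      refine e4.trans (Eq.trans ?_ e2.symm)
      rw [Function.iterate_succ_apply']
      apply h z _ (j - i) (by omega)
      rw [← Function.iterate_add_apply, Nat.sub_add_cancel hlt.le, ← e3, ← e2]
    rcases lt_or_gt_of_ne hne with hlt | hlt
    · exact key i j hlt hij
    · exact key j i hlt hij.symm
  have hval : ∀ w : List α, (((w.map f).prod : Submonoid.closure (Set.range F)) : Tr σ) =
      (w.map F).prod := by
    intro w
    induction w with
    | nil => rfl
    | cons a w ih => rw [List.map_cons, List.prod_cons, Submonoid.coe_mul, ih, List.map_cons,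
        List.prod_cons]
  have hU : {w : List α | P (w.foldl δ s₀)} =
      ⋃ m : Submonoid.closure (Set.range F), ⋃ _ : P (m.1.f s₀),
        {w : List α | (w.map f).prod = m} := by
    ext w
    simp only [Set.mem_iUnion]
    constructor
    · intro hw
      refine ⟨(w.map f).prod, ?_, rfl⟩
      rw [hval, hprod]; exact hw
    · rintro ⟨m, hm, hw⟩
      have hw' : (w.map f).prod = m := hw
      rw [← hw', hval, hprod] at hm
      exact hm
  rw [hU]
  exact SH.iUnion fun m => SH.iUnion_prop fun _ => schutz hA f m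

/-- Run of a partial deterministic automaton. -/
def run {α σ : Type} (δ : σ → α → Option σ) (s : σ) : List α → Option σ
  | [] => some s
  | x :: w => (δ s x).elim none (fun t => run δ t w)

/-- Number of events along a word. -/
def cnt {α σ : Type} (δ : σ → α → Option σ) (b : σ) (s : σ) : List α → ℕ
  | [] => 0
  | x :: w => (δ s x).elim (cnt δ b b w + 1) (fun t => cnt δ b t w)

/-- Final state, where each event restarts the automaton in `b`. -/
def fin {α σ : Type} (δ : σ → α → Option σ) (b : σ) (s : σ) : List α → σ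
  | [] => s
  | x :: w => (δ s x).elim (fin δ b b w) (fun t => fin δ b t w)

section basics

variable {α σ : Type} {δ : σ → α → Option σ} {b : σ}

theorem run_nil (s : σ) : run δ s [] = some s := rfl
theorem run_cons_none {s : σ} {x : α} (w : List α) (h : δ s x = none) :
    run δ s (x :: w) = none := by rw [run, h]; rfl
theorem run_cons_some {s t : σ} {x : α} (w : List α) (h : δ s x = some t) :
    run δ s (x :: w) = run δ t w := by rw [run, h]; rfl
theorem cnt_nil (s : σ) : cnt δ b s [] = 0 := rfl
theorem cnt_cons_none {s : σ} {x : α} (w : List α) (h : δ s x = none) :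
    cnt δ b s (x :: w) = cnt δ b b w + 1 := by rw [cnt, h]; rfl
theorem cnt_cons_some {s t : σ} {x : α} (w : List α) (h : δ s x = some t) :
    cnt δ b s (x :: w) = cnt δ b t w := by rw [cnt, h]; rfl
theorem fin_nil (s : σ) : fin δ b s [] = s := rfl
theorem fin_cons_none {s : σ} {x : α} (w : List α) (h : δ s x = none) :
    fin δ b s (x :: w) = fin δ b b w := by rw [fin, h]; rfl
theorem fin_cons_some {s t : σ} {x : α} (w : List α) (h : δ s x = some t) :
    fin δ b s (x :: w) = fin δ b t w := by rw [fin, h]; rfl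

theorem run_cons_eq_some {s t : σ} {x : α} {w : List α} (h : run δ s (x :: w) = some t) :
    ∃ s', δ s x = some s' ∧ run δ s' w = some t := by
  rcases hs : δ s x with _ | s'
  · rw [run_cons_none w hs] at h; cases h
  · rw [run_cons_some w hs] at h; exact ⟨s', rfl, h⟩

theorem run_append {s t : σ} {u : List α} (v : List α) (h : run δ s u = some t) :
    run δ s (u ++ v) = run δ t v := by
  induction u generalizing s with
  | nil => cases h; rfl
  | cons x u ih =>
    obtain ⟨s', h1, h2⟩ := run_cons_eq_some h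
    rw [List.cons_append, run_cons_some _ h1, ih h2]

theorem run_append_eq_some {s t : σ} {u v : List α} (h : run δ s (u ++ v) = some t) :
    ∃ s', run δ s u = some s' ∧ run δ s' v = some t := by
  induction u generalizing s with
  | nil => exact ⟨s, rfl, h⟩
  | cons x u ih =>
    rw [List.cons_append] at h
    obtain ⟨s', h1, h2⟩ := run_cons_eq_some h
    obtain ⟨s'', h3, h4⟩ := ih h2
    exact ⟨s'', by rw [run_cons_some _ h1, h3], h4⟩

theorem foldl_none (δ : σ → α → Option σ) (w : List α) :
    w.foldl (fun (o : Option σ) x => o.elim none (fun s => δ s x)) none = none := by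
  induction w with
  | nil => rfl
  | cons x w ih => exact ih

theorem foldl_run (δ : σ → α → Option σ) (w : List α) (s : σ) :
    w.foldl (fun (o : Option σ) x => o.elim none (fun s => δ s x)) (some s) = run δ s w := by
  induction w generalizing s with
  | nil => rfl
  | cons x w ih =>
    rw [List.foldl_cons]
    change w.foldl _ (δ s x) = _
    rcases hs : δ s x with _ | t
    · rw [run_cons_none w hs]; exact foldl_none δ w
    · rw [run_cons_some w hs]; exact ih t

theorem foldl_run_iter (δ : σ → α → Option σ) (z : List α) (n : ℕ) (o : Option σ) :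
    (fun t : Option σ => z.foldl (fun (o : Option σ) x => o.elim none (fun s => δ s x)) t)^[n] o =
    ((List.replicate n z).flatten).foldl (fun (o : Option σ) x => o.elim none (fun s => δ s x))
      o := by
  induction n generalizing o with
  | zero => rfl
  | succ n ih =>
    rw [Function.iterate_succ_apply, List.replicate_succ, List.flatten_cons, List.foldl_append, ih]

/-- The automaton has no nontrivial word-cycles. -/
def NoCyc (δ : σ → α → Option σ) : Prop :=
  ∀ (z : List α) (s : σ) (n : ℕ), 0 < n → run δ s (List.replicate n z).flatten = some s →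
    run δ s z = some s

theorem run_sf [Finite α] [Finite σ] (h : NoCyc δ) (s t : σ) :
    SH 0 {w : List α | run δ s w = some t} := by
  have := dfa_sf (fun (o : Option σ) x => o.elim none (fun s => δ s x)) (by
    intro z s n hn hs
    rw [foldl_run_iter] at hs
    rcases s with _ | s
    · exact foldl_none δ z
    · rw [foldl_run] at hs ⊢
      exact h z s n hn hs) (some s) (fun o => o = some t)
  refine Eq.mp (congrArg (SH 0) ?_) this
  ext w
  change w.foldl _ (some s) = some t ↔ run δ s w = some t
  rw [foldl_run]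

/-- Words leading to a first event at their end. -/
def evt (δ : σ → α → Option σ) (s : σ) : Set (List α) :=
  {w | ∃ u x t, run δ s u = some t ∧ δ t x = none ∧ u ++ [x] = w}

theorem evt_sf [Finite α] [Finite σ] (h : NoCyc δ) (s : σ) : SH 0 (evt δ s) := by
  have : SH 0 (⋃ t : σ, ⋃ x : α, ⋃ _ : δ t x = none, cat {w : List α | run δ s w = some t} {[x]}) :=
    SH.iUnion fun t => SH.iUnion fun x => SH.iUnion_prop fun _ => (run_sf h s t).cat (SH.single x)
  refine Eq.mp (congrArg (SH 0) ?_) this
  ext w
  simp only [Set.mem_iUnion, evt, mem_cat]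
  constructor
  · rintro ⟨t, x, hx, u, hu, v, hv, rfl⟩
    rw [Set.mem_singleton_iff] at hv
    subst hv
    exact ⟨u, x, t, hu, hx, rfl⟩
  · rintro ⟨u, x, t, hu, hx, rfl⟩
    exact ⟨t, x, hx, u, hu, [x], rfl, rfl⟩

/-- powers of a language -/
def lpow (U : Set (List α)) : ℕ → Set (List α)
  | 0 => {[]}
  | n + 1 => cat U (lpow U n)

theorem lpow_zero (U : Set (List α)) : lpow U 0 = {[]} := rfl
theorem lpow_succ (U : Set (List α)) (n : ℕ) : lpow U (n + 1) = cat U (lpow U n) := rfl

theorem lpow_sh {k : ℕ} {U : Set (List α)} (h : SH k U) (n : ℕ) : SH k (lpow U n) := by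
  induction n with
  | zero => rw [lpow_zero]; exact SH.eps
  | succ n ih => rw [lpow_succ]; exact h.cat ih

theorem mem_lpow {U : Set (List α)} {n : ℕ} {w : List α} :
    w ∈ lpow U n ↔ ∃ L : List (List α), L.length = n ∧ (∀ u ∈ L, u ∈ U) ∧ L.flatten = w := by
  induction n generalizing w with
  | zero =>
    rw [lpow_zero, Set.mem_singleton_iff]
    constructor
    · rintro rfl; exact ⟨[], rfl, by simp, rfl⟩
    · rintro ⟨L, hL, -, rfl⟩
      rw [List.length_eq_zero_iff.mp hL]; rfl
  | succ n ih =>
    rw [lpow_succ, mem_cat]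
    constructor
    · rintro ⟨u, hu, v, hv, rfl⟩
      obtain ⟨L, hL, hLU, rfl⟩ := ih.mp hv
      exact ⟨u :: L, by simp [hL], by
        intro y hy
        rcases List.mem_cons.mp hy with rfl | hy
        · exact hu
        · exact hLU y hy, rfl⟩
    · rintro ⟨L, hL, hLU, rfl⟩
      cases L with
      | nil => simp at hL
      | cons u L =>
        exact ⟨u, hLU u List.mem_cons_self, L.flatten, ih.mpr ⟨L, by simpa using hL,
          fun y hy => hLU y (List.mem_cons_of_mem _ hy), rfl⟩, rfl⟩

theorem mem_kst_lpow {U : Set (List α)} {n : ℕ} {w : List α} :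
    w ∈ kst (lpow U n) ↔ ∃ q : ℕ, w ∈ lpow U (n * q) := by
  constructor
  · rintro ⟨L, hL, rfl⟩
    induction L with
    | nil => exact ⟨0, by rw [Nat.mul_zero]; exact rfl⟩
    | cons u L ih =>
      obtain ⟨q, hq⟩ := ih fun y hy => hL y (List.mem_cons_of_mem _ hy)
      obtain ⟨L1, h1, h2, h3⟩ := mem_lpow.mp hq
      obtain ⟨L2, h4, h5, h6⟩ := mem_lpow.mp (hL u List.mem_cons_self)
      refine ⟨q + 1, mem_lpow.mpr ⟨L2 ++ L1, ?_, ?_, ?_⟩⟩
      · rw [List.length_append, h1, h4]; ring
      · intro y hy
        rcases List.mem_append.mp hy with hy | hy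
        · exact h5 y hy
        · exact h2 y hy
      · rw [List.flatten_append, h6, h3, List.flatten_cons]
  · rintro ⟨q, hq⟩
    induction q generalizing w with
    | zero =>
      rw [Nat.mul_zero] at hq
      exact ⟨[], by simp, (Set.mem_singleton_iff.mp hq).symm⟩
    | succ q ih =>
      obtain ⟨L, h1, h2, rfl⟩ := mem_lpow.mp hq
      have e : L = L.take n ++ L.drop n := (List.take_append_drop n L).symm
      have hn : n ≤ L.length := by rw [h1, Nat.mul_succ]; omega
      obtain ⟨L', hL', hf⟩ := ih (w := (L.drop n).flatten) (mem_lpow.mpr ⟨L.drop n, by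
        rw [List.length_drop, h1, Nat.mul_succ]; omega,
        fun y hy => h2 y (List.mem_of_mem_drop hy), rfl⟩)
      refine ⟨(L.take n).flatten :: L', ?_, ?_⟩
      · intro y hy
        rcases List.mem_cons.mp hy with rfl | hy
        · exact mem_lpow.mpr ⟨L.take n, by rw [List.length_take]; omega,
            fun y hy => h2 y (List.mem_of_mem_take hy), rfl⟩
        · exact hL' y hy
      · rw [List.flatten_cons, hf, ← List.flatten_append, ← e]

theorem cnt_zero_iff {s t : σ} {w : List α} :
    (cnt δ b s w = 0 ∧ fin δ b s w = t) ↔ run δ s w = some t := by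
  induction w generalizing s with
  | nil =>
    rw [cnt_nil, fin_nil, run_nil]
    constructor
    · rintro ⟨-, rfl⟩; rfl
    · intro h; cases h; exact ⟨rfl, rfl⟩
  | cons x w ih =>
    rcases hs : δ s x with _ | s'
    · rw [cnt_cons_none w hs, fin_cons_none w hs, run_cons_none w hs]
      constructor
      · rintro ⟨h, -⟩; omega
      · intro h; cases h
    · rw [cnt_cons_some w hs, fin_cons_some w hs, run_cons_some w hs]
      exact ih

theorem cnt_succ_iff {s t : σ} {w : List α} {m : ℕ} :
    (cnt δ b s w = m + 1 ∧ fin δ b s w = t) ↔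
      ∃ u ∈ evt δ s, ∃ v, (cnt δ b b v = m ∧ fin δ b b v = t) ∧ u ++ v = w := by
  induction w generalizing s with
  | nil =>
    rw [cnt_nil, fin_nil]
    constructor
    · rintro ⟨h, -⟩; omega
    · rintro ⟨u, ⟨u', x, s', -, -, rfl⟩, v, -, h⟩
      simp at h
  | cons y w ih =>
    rcases hs : δ s y with _ | s'
    · rw [cnt_cons_none w hs, fin_cons_none w hs]
      constructor
      · rintro ⟨h, h'⟩
        exact ⟨[y], ⟨[], y, s, rfl, hs, rfl⟩, w, ⟨by omega, h'⟩, rfl⟩
      · rintro ⟨u, ⟨u', x, s', h1, h2, rfl⟩, v, ⟨h3, h4⟩, h5⟩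
        cases u' with
        | nil =>
          rw [List.nil_append, List.singleton_append, List.cons.injEq] at h5
          obtain ⟨rfl, rfl⟩ := h5
          exact ⟨by omega, h4⟩
        | cons z u' =>
          rw [List.cons_append, List.cons_append, List.cons.injEq] at h5
          obtain ⟨rfl, h5⟩ := h5
          rw [run_cons_none u' hs] at h1
          cases h1
    · rw [cnt_cons_some w hs, fin_cons_some w hs, ih]
      constructor
      · rintro ⟨u, ⟨u', x, t', h1, h2, rfl⟩, v, h3, rfl⟩
        exact ⟨y :: (u' ++ [x]), ⟨y :: u', x, t', by rw [run_cons_some _ hs, h1], h2, rfl⟩, v, h3,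
          rfl⟩
      · rintro ⟨u, ⟨u', x, t', h1, h2, rfl⟩, v, h3, h5⟩
        cases u' with
        | nil =>
          rw [List.nil_append, List.singleton_append, List.cons.injEq] at h5
          obtain ⟨rfl, rfl⟩ := h5
          cases h1
          rw [hs] at h2
          cases h2
        | cons z u' =>
          rw [List.cons_append, List.cons_append, List.cons.injEq] at h5
          obtain ⟨rfl, h5⟩ := h5
          rw [run_cons_some u' hs] at h1
          exact ⟨u' ++ [x], ⟨u', x, t', h1, h2, rfl⟩, v, h3, h5⟩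

theorem cnt_lpow_iff {t : σ} {w : List α} {m : ℕ} :
    (cnt δ b b w = m ∧ fin δ b b w = t) ↔
      w ∈ cat (lpow (evt δ b) m) {w | run δ b w = some t} := by
  induction m generalizing w with
  | zero =>
    rw [cnt_zero_iff, lpow_zero, mem_cat]
    constructor
    · intro h; exact ⟨[], rfl, w, h, rfl⟩
    · rintro ⟨u, hu, v, hv, rfl⟩
      rw [Set.mem_singleton_iff.mp hu]; exact hv
  | succ m ih =>
    rw [cnt_succ_iff, lpow_succ, mem_cat]
    constructor
    · rintro ⟨u, hu, v, hv, rfl⟩
      obtain ⟨u', hu', v', hv', rfl⟩ := ih.mp hv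
      exact ⟨u ++ u', ⟨u, hu, u', hu', rfl⟩, v', hv', List.append_assoc _ _ _⟩
    · rintro ⟨-, ⟨u, hu, u', hu', rfl⟩, v, hv, rfl⟩
      exact ⟨u, hu, u' ++ v, ih.mpr ⟨u', hu', v, hv, rfl⟩, (List.append_assoc _ _ _).symm⟩

theorem event_base [Finite α] [Finite σ] (h : NoCyc δ) (b t : σ) (n : ℕ) (hn : 0 < n) (r : ℤ) :
    SH 1 {w : List α | (n : ℤ) ∣ (cnt δ b b w : ℤ) - r ∧ fin δ b b w = t} := by
  obtain ⟨r', hr'⟩ : ∃ r' : ℕ, (r' : ℤ) = r % n := ⟨(r % n).toNat, by
    rw [Int.toNat_of_nonneg (Int.emod_nonneg _ (by omega))]⟩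
  have hlt : r' < n := by
    have := Int.emod_lt_of_pos r (by omega : (0 : ℤ) < n)
    omega
  have hs : SH 1 (cat (kst (lpow (evt δ b) n)) (cat (lpow (evt δ b) r')
      {w | run δ b w = some t})) := by
    apply SH.cat
    · exact (lpow_sh (evt_sf h b) n).kst
    · exact (lpow_sh (evt_sf h b) r').of_zero.cat (run_sf h b t).of_zero
  refine Eq.mp (congrArg (SH 1) ?_) hs
  ext w
  have hdvd : ∀ c : ℕ, (n : ℤ) ∣ (c : ℤ) - r ↔ ∃ q : ℕ, c = n * q + r' := by
    intro c
    constructor
    · rintro ⟨q, hq⟩
      refine ⟨c / n, ?_⟩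
      have h1 : (c : ℤ) % n = r' := by
        rw [hr', show (c : ℤ) = r + n * q by omega, Int.add_mul_emod_self_left]
      have h2 : c % n = r' := by exact_mod_cast h1
      rw [← h2]; exact (Nat.div_add_mod c n).symm
    · rintro ⟨q, rfl⟩
      refine ⟨q - r / n, ?_⟩
      push_cast
      rw [hr', Int.emod_def]; ring
  constructor
  · rintro ⟨u, hu, v, ⟨u', hu', v', hv', rfl⟩, rfl⟩
    obtain ⟨q, hq⟩ := mem_kst_lpow.mp hu
    obtain ⟨L1, h1, h2, rfl⟩ := mem_lpow.mp hq
    obtain ⟨L2, h3, h4, rfl⟩ := mem_lpow.mp hu'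
    have := (cnt_lpow_iff (δ := δ) (b := b) (t := t) (m := n * q + r')
      (w := (L1 ++ L2).flatten ++ v')).mpr
      ⟨(L1 ++ L2).flatten, mem_lpow.mpr ⟨L1 ++ L2, by rw [List.length_append, h1, h3], by
        intro y hy
        rcases List.mem_append.mp hy with hy | hy
        · exact h2 y hy
        · exact h4 y hy, rfl⟩, v', hv', rfl⟩
    rw [List.flatten_append, List.append_assoc] at this
    exact ⟨(hdvd _).mpr ⟨q, this.1⟩, this.2⟩
  · rintro ⟨h1, h2⟩
    obtain ⟨q, hq⟩ := (hdvd _).mp h1
    obtain ⟨u, hu, v, hv, rfl⟩ := cnt_lpow_iff.mp ⟨hq, h2⟩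
    obtain ⟨L, h3, h4, rfl⟩ := mem_lpow.mp hu
    refine ⟨(L.take (n * q)).flatten, mem_kst_lpow.mpr ⟨q, mem_lpow.mpr ⟨L.take (n * q), by
      rw [List.length_take]; omega, fun y hy => h4 y (List.mem_of_mem_take hy), rfl⟩⟩,
      (L.drop (n * q)).flatten ++ v, ⟨(L.drop (n * q)).flatten, mem_lpow.mpr ⟨L.drop (n * q), by
      rw [List.length_drop]; omega, fun y hy => h4 y (List.mem_of_mem_drop hy), rfl⟩, v, hv, rfl⟩,
      ?_⟩
    rw [← List.append_assoc, ← List.flatten_append, List.take_append_drop]

theorem event [Finite α] [Finite σ] (h : NoCyc δ) (b s t : σ) (n : ℕ) (hn : 0 < n) (r : ℤ) :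
    SH 1 {w : List α | (n : ℤ) ∣ (cnt δ b s w : ℤ) - r ∧ fin δ b s w = t} := by
  have h1 : SH 1 ((⋃ _ : (n : ℤ) ∣ - r, {w : List α | run δ s w = some t}) ∪
      cat (evt δ s) {w : List α | (n : ℤ) ∣ (cnt δ b b w : ℤ) - (r - 1) ∧ fin δ b b w = t}) :=
    (SH.iUnion_prop fun _ => (run_sf h s t).of_zero).union
      ((evt_sf h s).of_zero.cat (event_base h b t n hn (r - 1)))
  refine Eq.mp (congrArg (SH 1) ?_) h1
  ext w
  constructor
  · rintro (hw | ⟨u, hu, v, ⟨hv, hv'⟩, rfl⟩)
    · obtain ⟨h2, h3⟩ := Set.mem_iUnion.mp hw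
      obtain ⟨h4, h5⟩ := (cnt_zero_iff (b := b)).mpr h3
      refine ⟨?_, h5⟩
      rw [h4]
      simpa using h2
    · obtain ⟨h2, h3⟩ := (cnt_succ_iff (δ := δ) (b := b) (s := s) (t := t) (m := cnt δ b b v)
        (w := u ++ v)).mpr ⟨u, hu, v, ⟨rfl, hv'⟩, rfl⟩
      refine ⟨?_, h3⟩
      rw [h2]
      push_cast
      rw [show (cnt δ b b v : ℤ) + 1 - r = (cnt δ b b v : ℤ) - (r - 1) by ring]
      exact hv
  · rintro ⟨h1, h2⟩
    rcases hc : cnt δ b s w with _ | m
    · left
      rw [hc] at h1
      exact Set.mem_iUnion.mpr ⟨by simpa using h1, cnt_zero_iff.mp ⟨hc, h2⟩⟩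
    · right
      obtain ⟨u, hu, v, ⟨h3, h4⟩, rfl⟩ := cnt_succ_iff.mp ⟨hc, h2⟩
      refine ⟨u, hu, v, ⟨?_, h4⟩, rfl⟩
      rw [hc] at h1
      push_cast at h1
      rw [h3, show (m : ℤ) - (r - 1) = (m : ℤ) + 1 - r by ring]
      exact h1

end basics

end Vale.Agent.P329
end
end

section

namespace Vale.Agent.P329.Slow

set_option linter.unusedSectionVars false

variable {α V : Type} [DecidableEq α] [AddCommGroup V]

section fold

variable (M : α → V →+ V) (R D : ℕ) (τ : ZMod D → V)

/-- value of a state after closing the current run -/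
def cl (s : V × α × ℕ) : V := (M s.2.1)^[s.2.2] (s.1 + τ ((s.2.2 / R : ℕ) : ZMod D))

/-- reading one letter -/
def step (s : V × α × ℕ) (b : α) : V × α × ℕ :=
  if b = s.2.1 then (s.1, s.2.1, s.2.2 + 1) else (cl M R D τ s, b, 1)

/-- reading a word -/
def run (s : V × α × ℕ) (w : List α) : V × α × ℕ := w.foldl (step M R D τ) s

variable {M R D τ}

theorem run_nil (s : V × α × ℕ) : run M R D τ s [] = s := rfl

theorem run_cons (s : V × α × ℕ) (b : α) (w : List α) :
    run M R D τ s (b :: w) = run M R D τ (step M R D τ s b) w := rfl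

theorem run_append (s : V × α × ℕ) (u v : List α) :
    run M R D τ s (u ++ v) = run M R D τ (run M R D τ s u) v := List.foldl_append

theorem step_eq (x : V) (a : α) (l : ℕ) : step M R D τ (x, a, l) a = (x, a, l + 1) := if_pos rfl

theorem step_ne {x : V} {a b : α} {l : ℕ} (h : b ≠ a) :
    step M R D τ (x, a, l) b = (cl M R D τ (x, a, l), b, 1) := if_neg h

theorem cl_zero (h0 : τ 0 = 0) (x : V) (a : α) : cl M R D τ (x, a, 0) = x := by
  simp [cl, h0]

theorem step_zero (h0 : τ 0 = 0) (x : V) (a b : α) : step M R D τ (x, a, 0) b = (x, b, 1) := by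
  by_cases h : b = a
  · subst h; rw [step_eq]
  · rw [step_ne h, cl_zero h0]

theorem cl_run_zero (h0 : τ 0 = 0) (x : V) (a b : α) (w : List α) :
    cl M R D τ (run M R D τ (x, a, 0) w) = cl M R D τ (run M R D τ (x, b, 0) w) := by
  cases w with
  | nil => rw [run_nil, run_nil, cl_zero h0, cl_zero h0]
  | cons c w => rw [run_cons, run_cons, step_zero h0, step_zero h0]

/-- closing before reading a word that does not continue the run -/
theorem cl_run_close (h0 : τ 0 = 0) {x : V} {a : α} {l : ℕ} {w : List α}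
    (hw : w.head? ≠ some a) (b : α) :
    cl M R D τ (run M R D τ (x, a, l) w) =
      cl M R D τ (run M R D τ (cl M R D τ (x, a, l), b, 0) w) := by
  cases w with
  | nil => rw [run_nil, run_nil, cl_zero h0]
  | cons c w =>
    have hc : c ≠ a := fun h => hw (by rw [h]; rfl)
    rw [run_cons, run_cons, step_zero h0, step_ne hc]

theorem run_close (h0 : τ 0 = 0) {x : V} {a : α} {l : ℕ} {w : List α}
    (hw : w.head? ≠ some a) (hne : w ≠ []) (b : α) :
    run M R D τ (x, a, l) w = run M R D τ (cl M R D τ (x, a, l), b, 0) w := by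
  cases w with
  | nil => exact absurd rfl hne
  | cons c w =>
    have hc : c ≠ a := fun h => hw (by rw [h]; rfl)
    rw [run_cons, run_cons, step_zero h0, step_ne hc]

theorem run_rep (x : V) (a : α) (l k : ℕ) :
    run M R D τ (x, a, l) (List.replicate k a) = (x, a, l + k) := by
  induction k generalizing l with
  | zero => rfl
  | succ k ih => rw [List.replicate_succ, run_cons, step_eq, ih]; congr 2; omega

theorem run_rep_close (h0 : τ 0 = 0) {s : V × α × ℕ} {a : α} {k : ℕ} (hk : 0 < k)
    (hs : s.2.1 ≠ a ∨ s.2.2 = 0) :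
    run M R D τ s (List.replicate k a) = (cl M R D τ s, a, k) := by
  obtain ⟨x, c, l⟩ := s
  obtain ⟨k, rfl⟩ : ∃ k', k = k' + 1 := ⟨k - 1, by omega⟩
  rw [List.replicate_succ, run_cons]
  rcases hs with h | h
  · rw [step_ne (Ne.symm h), run_rep]; congr 2; omega
  · simp only at h
    subst h
    rw [step_zero h0, run_rep, cl_zero h0]; congr 2; omega

theorem run_last {x : V} {c a : α} {u : List α} (hu : u.getLast? ≠ some a) :
    (run M R D τ (x, c, 0) u).2.1 ≠ a ∨ (run M R D τ (x, c, 0) u).2.2 = 0 := by
  rcases List.eq_nil_or_concat u with rfl | ⟨u', d, rfl⟩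
  · right; rfl
  · left
    rw [List.concat_eq_append] at hu ⊢
    rw [run_append, run_cons, run_nil]
    have hd : d ≠ a := fun h => hu (by rw [h]; simp)
    rw [step]
    split
    · rename_i h; rw [← h]; exact hd
    · exact hd

/-- reading a short word followed by a run of another letter -/
theorem run_word_rep (h0 : τ 0 = 0) {x : V} {c a : α} {u : List α} {k : ℕ} (hk : 0 < k)
    (hu : u.getLast? ≠ some a) :
    run M R D τ (x, c, 0) (u ++ List.replicate k a) =
      (cl M R D τ (run M R D τ (x, c, 0) u), a, k) := by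
  rw [run_append, run_rep_close h0 hk (run_last hu)]

end fold

section core

variable {M : α → V →+ V} {R D : ℕ} {τ : ZMod D → V}

/-- the coordinate after a run whose remainder is known -/
def gg (M : α → V →+ V) (R : ℕ) (b : α) (r : ℕ) (c : V) : V := (M b)^[r] ((M b)^[R] c)

/-- A coding together with the action of the letters. -/
structure Cod (M : α → V →+ V) (R D : ℕ) (τ : ZMod D → V) (W U : ZMod D → Option V) : Prop where
  hR : 0 < R
  hD : 0 < D
  idem : ∀ a x, (M a)^[R] ((M a)^[R] x) = (M a)^[R] x
  link : ∀ i j y c, W i = some y → U j = some c → c = y + τ (i + j)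
  full : ∀ k y, ∃ i c, W i = some y ∧ U (k - i) = some c
  W0 : W 0 = some 0
  U0 : U 0 = some 0

/-- the cut states -/
def Inv (M : α → V →+ V) (R D : ℕ) (W : ZMod D → Option V) (s : V × α × ℕ) : Prop :=
  ∃ i : ℕ, 0 < i ∧ s.2.2 = R * i ∧ W (i : ZMod D) = some ((M s.2.1)^[R] s.1)

variable {W U : ZMod D → Option V}

theorem Cod.tau0 (h : Cod M R D τ W U) : τ 0 = 0 := by
  have := h.link 0 0 0 0 h.W0 h.U0
  simpa using this.symm

theorem iter_zero (a : α) (n : ℕ) : (M a)^[n] (0 : V) = 0 := by
  induction n with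
  | zero => rfl
  | succ n ih => rw [Function.iterate_succ_apply', ih, map_zero]

theorem iter_add (a : α) (n : ℕ) (x y : V) : (M a)^[n] (x + y) = (M a)^[n] x + (M a)^[n] y := by
  induction n with
  | zero => rfl
  | succ n ih => rw [Function.iterate_succ_apply', ih, map_add, Function.iterate_succ_apply',
      Function.iterate_succ_apply']

theorem iter_sub (a : α) (n : ℕ) (x y : V) : (M a)^[n] (x - y) = (M a)^[n] x - (M a)^[n] y := by
  induction n with
  | zero => rfl
  | succ n ih => rw [Function.iterate_succ_apply', ih, map_sub, Function.iterate_succ_apply',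
      Function.iterate_succ_apply']

theorem Cod.iter_mul (h : Cod M R D τ W U) (a : α) {i : ℕ} (hi : 0 < i) (x : V) :
    (M a)^[R * i] x = (M a)^[R] x := by
  obtain ⟨i, rfl⟩ : ∃ i', i = i' + 1 := ⟨i - 1, by omega⟩
  induction i generalizing x with
  | zero => rw [zero_add, mul_one]
  | succ i ih =>
    rw [mul_add, mul_one, Function.iterate_add_apply, ih _ (by omega), h.idem]

theorem Cod.iter_gen (h : Cod M R D τ W U) (a : α) {i r : ℕ} (hi : 0 < i) (x : V) :
    (M a)^[R * i + r] x = (M a)^[r] ((M a)^[R] x) := by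
  rw [add_comm, Function.iterate_add_apply, h.iter_mul a hi]

theorem Cod.cl_gen (h : Cod M R D τ W U) (x : V) (a : α) {i r : ℕ} (hi : 0 < i) (hr : r < R) :
    cl M R D τ (x, a, R * i + r) = gg M R a r (x + τ (i : ZMod D)) := by
  have h1 : (R * i + r) / R = i := by
    rw [Nat.mul_add_div h.hR, Nat.div_eq_of_lt hr, add_zero]
  show (M a)^[R * i + r] (x + τ (((R * i + r) / R : ℕ) : ZMod D)) = _
  rw [h1, h.iter_gen a hi, gg]

theorem Cod.gg_link (h : Cod M R D τ W U) (a : α) (r : ℕ) {i j : ZMod D} {x c : V}
    (hW : W i = some ((M a)^[R] x)) (hU : U j = some c) :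
    gg M R a r (x + τ (i + j)) = gg M R a r c := by
  have h1 := h.link i j _ c hW hU
  rw [gg, gg, h1]
  congr 1
  rw [iter_add, iter_add, h.idem]

/-- closing a run after a cut -/
theorem Cod.cl_after (h : Cod M R D τ W U) {s : V × α × ℕ} (hs : Inv M R D W s) (b : α)
    {j r : ℕ} (hj : 0 < j) (hr : r < R) {c : V} (hc : U (j : ZMod D) = some c) :
    ∃ y l, run M R D τ s (List.replicate (R * j + r) b) = (y, b, l) ∧
      cl M R D τ (y, b, l) = gg M R b r c := by
  obtain ⟨x, a, l⟩ := s
  obtain ⟨i, hi, h1, h2⟩ := hs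
  simp only at h1 h2
  subst h1
  by_cases hb : b = a
  · subst hb
    refine ⟨x, R * i + (R * j + r), run_rep _ _ _ _, ?_⟩
    have : R * i + (R * j + r) = R * (i + j) + r := by ring
    rw [this, h.cl_gen x b (by omega) hr, Nat.cast_add, h.gg_link b r h2 hc]
  · have h3 : cl M R D τ (x, a, R * i) = 0 := by
      have h4 := h.cl_gen x a (r := 0) hi h.hR
      rw [add_zero] at h4
      rw [h4, ← add_zero (i : ZMod D), h.gg_link a 0 h2 h.U0, gg, iter_zero, iter_zero]
    refine ⟨0, R * j + r, ?_, ?_⟩
    · rw [run_rep_close h.tau0 (Nat.add_pos_left (Nat.mul_pos h.hR hj) r)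
        (Or.inl (Ne.symm hb)), h3]
    · have h5 : W 0 = some ((M b)^[R] 0) := by rw [iter_zero]; exact h.W0
      have h6 := h.gg_link b r h5 hc
      rw [zero_add, zero_add] at h6
      rw [h.cl_gen 0 b hj hr, zero_add, h6]

variable (M R D τ W U) in
/-- the words between two cuts -/
def KK (m : ℕ) : Set (List α) :=
  {k | (∃ a, k = List.replicate (R * D) a) ∨
    ∃ (b : α) (j r : ℕ) (u : List α) (a : α) (i : ℕ) (c : V),
      k = List.replicate (R * j + r) b ++ (u ++ List.replicate (R * i) a) ∧
      0 < j ∧ j ≤ D ∧ r < R ∧ u.length < m ∧ 0 < i ∧ i ≤ D ∧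
      (u ++ List.replicate (R * i) a).head? ≠ some b ∧ u.getLast? ≠ some a ∧
      U (j : ZMod D) = some c ∧
      W (i : ZMod D) = some ((M a)^[R] (cl M R D τ (run M R D τ (gg M R b r c, b, 0) u)))}

variable (M R D τ W) in
/-- the words before the first cut -/
def PP (m : ℕ) (x : V) (a0 : α) : Set (List α) :=
  {p | ∃ (u : List α) (a : α) (i : ℕ), p = u ++ List.replicate (R * i) a ∧ u.length < m ∧ 0 < i ∧
    i ≤ D ∧ u.getLast? ≠ some a ∧
    W (i : ZMod D) = some ((M a)^[R] (cl M R D τ (run M R D τ (x, a0, 0) u)))}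

variable (M R D τ U) in
/-- the words after the last cut -/
def SS (m : ℕ) (v : V) : Set (List α) :=
  {s | ∃ (b : α) (j r : ℕ) (u : List α) (c : V), s = List.replicate (R * j + r) b ++ u ∧
    0 < j ∧ j ≤ D ∧ r < R ∧ u.length < m ∧ u.head? ≠ some b ∧ U (j : ZMod D) = some c ∧
    cl M R D τ (run M R D τ (gg M R b r c, b, 0) u) = v}

theorem Cod.inv_KK (h : Cod M R D τ W U) {m : ℕ} {k : List α} (hk : k ∈ KK M R D τ W U m)
    {s : V × α × ℕ} (hs : Inv M R D W s) : Inv M R D W (run M R D τ s k) := by
  rcases hk with ⟨a, rfl⟩ | ⟨b, j, r, u, a, i, c, rfl, hj, -, hr, -, hi, -, h1, h2, h3, h4⟩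
  · obtain ⟨x, a', l⟩ := s
    obtain ⟨i, hi, h1, h2⟩ := hs
    simp only at h1 h2
    subst h1
    by_cases ha : a = a'
    · subst ha
      rw [run_rep]
      refine ⟨i + D, by omega, by simp only; ring, ?_⟩
      simp only
      rw [Nat.cast_add, ZMod.natCast_self, add_zero, h2]
    · have h3 : cl M R D τ (x, a', R * i) = 0 := by
        have h4 := h.cl_gen x a' (r := 0) hi h.hR
        rw [add_zero] at h4
        rw [h4, ← add_zero (i : ZMod D), h.gg_link a' 0 h2 h.U0, gg, iter_zero, iter_zero]
      rw [run_rep_close h.tau0 (Nat.mul_pos h.hR h.hD) (Or.inl (Ne.symm ha)), h3]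
      refine ⟨D, h.hD, rfl, ?_⟩
      simp only
      rw [ZMod.natCast_self, iter_zero, h.W0]
  · obtain ⟨y, l, h5, h6⟩ := h.cl_after hs b hj hr h3
    have hpos : 0 < R * i := Nat.mul_pos h.hR hi
    have hne : u ++ List.replicate (R * i) a ≠ [] := by
      intro h7
      have := congrArg List.length h7
      rw [List.length_append, List.length_replicate, List.length_nil] at this
      omega
    rw [run_append, h5, run_close h.tau0 h1 hne b, h6, run_word_rep h.tau0 hpos h2]
    exact ⟨i, hi, rfl, h4⟩

theorem Cod.inv_kst (h : Cod M R D τ W U) {m : ℕ} {z : List α}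
    (hz : z ∈ kst (KK M R D τ W U m)) {s : V × α × ℕ} (hs : Inv M R D W s) :
    Inv M R D W (run M R D τ s z) := by
  obtain ⟨L, hL, rfl⟩ := hz
  induction L generalizing s with
  | nil => exact hs
  | cons k L ih =>
    rw [List.flatten_cons, run_append]
    exact ih (h.inv_KK (hL k List.mem_cons_self) hs)
      (fun u hu => hL u (List.mem_cons_of_mem _ hu))

theorem Cod.inv_PP (h : Cod M R D τ W U) {m : ℕ} {x : V} {a0 : α} {p : List α}
    (hp : p ∈ PP M R D τ W m x a0) : Inv M R D W (run M R D τ (x, a0, 0) p) := by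
  obtain ⟨u, a, i, rfl, -, hi, -, h1, h2⟩ := hp
  rw [run_word_rep h.tau0 (Nat.mul_pos h.hR hi) h1]
  exact ⟨i, hi, rfl, h2⟩

theorem Cod.cl_SS (h : Cod M R D τ W U) {m : ℕ} {v : V} {z : List α}
    (hz : z ∈ SS M R D τ U m v) {s : V × α × ℕ} (hs : Inv M R D W s) :
    cl M R D τ (run M R D τ s z) = v := by
  obtain ⟨b, j, r, u, c, rfl, hj, -, hr, -, h1, h2, h3⟩ := hz
  obtain ⟨y, l, h5, h6⟩ := h.cl_after hs b hj hr h2
  rw [run_append, h5, cl_run_close h.tau0 h1 b, h6, h3]

/-- soundness -/
theorem Cod.sound (h : Cod M R D τ W U) {m : ℕ} {x v : V} {a0 : α} {w : List α}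
    (hw : w ∈ cat (PP M R D τ W m x a0) (cat (kst (KK M R D τ W U m)) (SS M R D τ U m v))) :
    cl M R D τ (run M R D τ (x, a0, 0) w) = v := by
  obtain ⟨p, hp, _, ⟨k, hk, s, hs, rfl⟩, rfl⟩ := hw
  rw [run_append, run_append]
  exact h.cl_SS hs (h.inv_kst hk (h.inv_PP hp))

end core

end Vale.Agent.P329.Slow
end

section

namespace Vale.Agent.P329.Slow

/-- Every factor of length `m` of the word `w` contains the `N`-th power of some letter
as a factor. -/
def Slow {α : Type} (N m : ℕ) (w : List α) : Prop :=
  ∀ u : List α, u <:+: w → u.length = m → ∃ a : α, List.replicate N a <:+: u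

end Vale.Agent.P329.Slow
end

section

namespace Vale.Agent.P329.Slow

set_option linter.unusedSectionVars false
set_option linter.dupNamespace false

section words

variable {α : Type}

theorem slow_infix {N m : ℕ} {w z : List α} (h : Slow N m w) (hz : z <:+: w) : Slow N m z :=
  fun u hu hm => h u (hu.trans hz) hm

theorem slow_length_lt {N m : ℕ} {w u : List α} (h : Slow N m w) (hu : u <:+: w)
    (hn : ∀ b, ¬ List.replicate N b <:+: u) : u.length < m := by
  by_contra hc
  push Not at hc
  obtain ⟨a, ha⟩ := h (u.take m) ((List.take_prefix m u).isInfix.trans hu)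
    (by rw [List.length_take]; omega)
  exact hn a (ha.trans (List.take_prefix m u).isInfix)

theorem max_run [DecidableEq α] (c : α) (z : List α) :
    ∃ k z', z = List.replicate k c ++ z' ∧ z'.head? ≠ some c := by
  induction z with
  | nil => exact ⟨0, [], rfl, by simp⟩
  | cons d z ih =>
    by_cases hd : d = c
    · subst hd
      obtain ⟨k, z', rfl, h2⟩ := ih
      exact ⟨k + 1, z', rfl, h2⟩
    · refine ⟨0, d :: z, rfl, ?_⟩
      intro h
      rw [List.head?_cons] at h
      exact hd (Option.some.inj h)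

theorem run_le {c : α} {N k : ℕ} {z' : List α} (hz : z'.head? ≠ some c)
    (h : List.replicate N c <+: List.replicate k c ++ z') : N ≤ k := by
  induction k generalizing N with
  | zero =>
    by_contra hN
    obtain ⟨N, rfl⟩ : ∃ N', N = N' + 1 := ⟨N - 1, by omega⟩
    obtain ⟨t, ht⟩ := h
    rw [List.replicate_zero, List.nil_append, List.replicate_succ, List.cons_append] at ht
    rw [← ht] at hz
    exact hz rfl
  | succ k ih =>
    rcases N with _ | N
    · omega
    · rw [List.replicate_succ, List.replicate_succ, List.cons_append, List.cons_prefix_cons] at h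
      have := ih h.2
      omega

theorem first_run [DecidableEq α] {N : ℕ} (hN : 0 < N) (z : List α) :
    (∀ a, ¬ List.replicate N a <:+: z) ∨ ∃ (u : List α) (a : α) (l : ℕ) (z' : List α),
      z = u ++ (List.replicate l a ++ z') ∧ N ≤ l ∧ (∀ b, ¬ List.replicate N b <:+: u) ∧
      u.getLast? ≠ some a ∧ z'.head? ≠ some a := by
  have hnil : ∀ b : α, ¬ List.replicate N b <:+: [] := by
    intro b hb
    have := hb.length_le
    rw [List.length_replicate, List.length_nil] at this
    omega
  induction z with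
  | nil => exact Or.inl hnil
  | cons c z ih =>
    by_cases hp : List.replicate N c <+: c :: z
    · right
      obtain ⟨k, z', h1, h2⟩ := max_run c (c :: z)
      refine ⟨[], c, k, z', h1, ?_, hnil, by simp, h2⟩
      rw [h1] at hp
      exact run_le h2 hp
    · have key : ∀ v : List α, ∀ b, List.replicate N b <+: c :: v → b = c := by
        intro v b hb
        obtain ⟨N, rfl⟩ : ∃ N', N = N' + 1 := ⟨N - 1, by omega⟩
        rw [List.replicate_succ, List.cons_prefix_cons] at hb
        exact hb.1
      rcases ih with ih | ⟨u, a, l, z', rfl, h1, h2, h3, h4⟩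
      · left
        intro a ha
        rcases List.infix_cons_iff.1 ha with h | h
        · have := key _ _ h
          subst this
          exact hp h
        · exact ih a h
      · right
        have hu : ∀ b, ¬ List.replicate N b <:+: c :: u := by
          intro b hb
          rcases List.infix_cons_iff.1 hb with h | h
          · have := key _ _ h
            subst this
            exact hp (h.trans ⟨List.replicate l a ++ z', rfl⟩)
          · exact h2 b h
        rcases u with _ | ⟨d, u⟩
        · by_cases hc : c = a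
          · subst hc
            exact ⟨[], c, l + 1, z', rfl, by omega, hnil, by simp, h4⟩
          · refine ⟨[c], a, l, z', rfl, h1, hu, ?_, h4⟩
            intro h
            rw [List.getLast?_singleton] at h
            exact hc (Option.some.inj h)
        · refine ⟨c :: d :: u, a, l, z', rfl, h1, hu, ?_, h4⟩
          rwa [List.getLast?_cons_cons]

end words

section cover

variable {α V : Type} [DecidableEq α] [AddCommGroup V]
variable {M : α → V →+ V} {R D : ℕ} {τ : ZMod D → V} {W U : ZMod D → Option V}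

theorem kst_cons {K : Set (List α)} {k z : List α} (hk : k ∈ K) (hz : z ∈ kst K) :
    k ++ z ∈ kst K := by
  obtain ⟨L, hL, rfl⟩ := hz
  refine ⟨k :: L, ?_, rfl⟩
  intro u hu
  rcases List.mem_cons.1 hu with rfl | hu
  · exact hk
  · exact hL u hu

theorem hop {m : ℕ} {S : Set (List α)} {b : α} {z : List α} (q : ℕ)
    (hz : z ∈ cat (kst (KK M R D τ W U m)) S) :
    List.replicate (R * D * q) b ++ z ∈ cat (kst (KK M R D τ W U m)) S := by
  induction q with
  | zero => simpa using hz
  | succ q ih =>
    obtain ⟨k, hk, s, hs, h⟩ := ih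
    refine ⟨List.replicate (R * D) b ++ k, kst_cons (Or.inl ⟨b, rfl⟩) hk, s, hs, ?_⟩
    rw [List.append_assoc, h, ← List.append_assoc, ← List.replicate_add]
    congr 2
    ring

theorem head_append {u v w : List α} {b : α} (hv : v ≠ []) (h : (u ++ (v ++ w)).head? ≠ some b) :
    (u ++ v).head? ≠ some b := by
  cases u with
  | nil =>
    cases v with
    | nil => exact absurd rfl hv
    | cons c v => simpa using h
  | cons c u => simpa using h

theorem rep_ne_nil {k : ℕ} (hk : 0 < k) (a : α) : List.replicate k a ≠ [] := by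
  intro h
  have := congrArg List.length h
  rw [List.length_replicate, List.length_nil] at this
  omega

theorem Cod.cut (h : Cod M R D τ W U) {l : ℕ} (hl : R * (2 * D + 2) ≤ l) (x : V) (b : α) :
    ∃ (i j q r : ℕ) (c : V), 0 < i ∧ i ≤ D ∧ W (i : ZMod D) = some ((M b)^[R] x) ∧ R * i ≤ l ∧
      0 < j ∧ j ≤ D ∧ r < R ∧ U (j : ZMod D) = some c ∧
      l - R * i = R * D * q + (R * j + r) ∧ cl M R D τ (x, b, l) = gg M R b r c := by
  have hR := h.hR
  have hD := h.hD
  have : NeZero D := ⟨hD.ne'⟩
  obtain ⟨i0, c, h1, h2⟩ := h.full ((l / R : ℕ) : ZMod D) ((M b)^[R] x)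
  obtain ⟨i, hi, hiD, hi0⟩ : ∃ i : ℕ, 0 < i ∧ i ≤ D ∧ (i : ZMod D) = i0 := by
    by_cases h0 : i0 = 0
    · exact ⟨D, hD, le_refl D, by rw [ZMod.natCast_self, h0]⟩
    · refine ⟨i0.val, ?_, (ZMod.val_lt i0).le, ZMod.natCast_zmod_val i0⟩
      exact Nat.pos_of_ne_zero fun h3 => h0 ((ZMod.val_eq_zero i0).1 h3)
  have hk : 2 * D + 2 ≤ l / R := by
    rw [Nat.le_div_iff_mul_le hR, mul_comm]; exact hl
  have hdiv : R * (l / R) + l % R = l := Nat.div_add_mod l R
  obtain ⟨t, ht⟩ : ∃ t, l / R = i + (t + 1) := ⟨l / R - i - 1, by omega⟩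
  have hle : R * i ≤ l := by
    calc R * i ≤ R * (l / R) := Nat.mul_le_mul_left R (by omega)
      _ ≤ l := by omega
  refine ⟨i, t % D + 1, t / D, l % R, c, hi, hiD, by rw [hi0]; exact h1, hle, by omega,
    Nat.mod_lt _ hD, Nat.mod_lt _ hR, ?_, ?_, ?_⟩
  · rw [← h2, ← hi0, ht]
    congr 1
    have h3 : ((t % D + 1 : ℕ) : ZMod D) = ((t + 1 : ℕ) : ZMod D) := by
      rw [Nat.cast_add, Nat.cast_add, ZMod.natCast_mod]
    rw [h3, Nat.cast_add i (t + 1)]
    abel
  · have h4 : t = D * (t / D) + t % D := (Nat.div_add_mod t D).symm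
    have h5 : l = R * i + (R * D * (t / D) + (R * (t % D + 1) + l % R)) := by
      calc l = R * (l / R) + l % R := hdiv.symm
        _ = R * (i + (t + 1)) + l % R := by rw [ht]
        _ = R * (i + ((D * (t / D) + t % D) + 1)) + l % R := by rw [← h4]
        _ = _ := by ring
    omega
  · have h6 : l = R * (l / R) + l % R := hdiv.symm
    have h7 : cl M R D τ (x, b, l) = gg M R b (l % R) (x + τ ((l / R : ℕ) : ZMod D)) := by
      have := h.cl_gen x b (i := l / R) (by omega) (Nat.mod_lt l hR)
      rwa [← h6] at this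
    rw [h7]
    have h8 := h.gg_link b (l % R) h1 h2
    rwa [add_sub_cancel] at h8

theorem Cod.cover (h : Cod M R D τ W U) {N m : ℕ} (hN : R * (2 * D + 2) ≤ N) (n : ℕ) :
    ∀ (z : List α), z.length < n → ∀ (x : V) (b : α) (l : ℕ), N ≤ l → z.head? ≠ some b →
      Slow N m z → ∃ i : ℕ, 0 < i ∧ i ≤ D ∧ W (i : ZMod D) = some ((M b)^[R] x) ∧
        R * i ≤ l ∧
        List.replicate (l - R * i) b ++ z ∈ cat (kst (KK M R D τ W U m))
          (SS M R D τ U m (cl M R D τ (run M R D τ (x, b, l) z))) := by
  have hR := h.hR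
  have hD := h.hD
  have hNpos : 0 < N := lt_of_lt_of_le (Nat.mul_pos hR (by omega)) hN
  induction n with
  | zero => intro z hz; omega
  | succ n ih =>
    intro z hz x b l hl hb hs
    obtain ⟨i, j, q, r, c, hi, hiD, hW, hle, hj, hjD, hr, hU, hlen, hcl⟩ :=
      h.cut (hN.trans hl) x b
    refine ⟨i, hi, hiD, hW, hle, ?_⟩
    rw [hlen, List.replicate_add, List.append_assoc]
    apply hop
    rcases first_run hNpos z with hno | ⟨u, a, l2, z', rfl, hl2, hu, hua, hz'⟩
    · refine ⟨[], ⟨[], by simp, rfl⟩, _, ?_, rfl⟩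
      refine ⟨b, j, r, z, c, rfl, hj, hjD, hr, slow_length_lt hs (List.infix_refl z) hno, hb, hU, ?_⟩
      have e := cl_run_close (M := M) (R := R) (D := D) h.tau0 (l := l) (x := x) hb b
      rw [hcl] at e
      exact e.symm
    · have hl2pos : 0 < l2 := lt_of_lt_of_le hNpos hl2
      have hne := rep_ne_nil hl2pos a
      have hb' := head_append hne hb
      have huw : u <:+: u ++ (List.replicate l2 a ++ z') := (List.prefix_append _ _).isInfix
      have hzw : z' <:+: u ++ (List.replicate l2 a ++ z') := by
        rw [← List.append_assoc]; exact (List.suffix_append _ _).isInfix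
      have hrun : run M R D τ (x, b, l) (u ++ (List.replicate l2 a ++ z')) =
          run M R D τ (cl M R D τ (run M R D τ (gg M R b r c, b, 0) u), a, l2) z' := by
        rw [← List.append_assoc, run_append,
          run_close h.tau0 hb' (by simp [hne]) b, hcl, run_word_rep h.tau0 hl2pos hua]
      have hlt : z'.length < n := by
        rw [List.length_append, List.length_append, List.length_replicate] at hz
        omega
      obtain ⟨i2, hi2, hi2D, hW2, hle2, k, hk, s, hs2, hks⟩ := ih z' hlt
        (cl M R D τ (run M R D τ (gg M R b r c, b, 0) u)) a l2 hl2 hz' (slow_infix hs hzw)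
      rw [hrun]
      refine ⟨(List.replicate (R * j + r) b ++ (u ++ List.replicate (R * i2) a)) ++ k,
        kst_cons (Or.inr ⟨b, j, r, u, a, i2, c, rfl, hj, hjD, hr, slow_length_lt hs huw hu, hi2, hi2D,
          ?_, hua, hU, hW2⟩) hk, s, hs2, ?_⟩
      · have hpos : 0 < R * i2 := Nat.mul_pos hR hi2
        have e : List.replicate l2 a = List.replicate (R * i2) a ++ List.replicate (l2 - R * i2) a := by
          rw [← List.replicate_add]; congr 1; omega
        rw [e] at hb'
        exact head_append (rep_ne_nil hpos a) hb'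
      · have e : List.replicate l2 a = List.replicate (R * i2) a ++ List.replicate (l2 - R * i2) a := by
          rw [← List.replicate_add]; congr 1; omega
        rw [List.append_assoc, hks, e]
        simp only [List.append_assoc]

/-- completeness -/
theorem Cod.complete (h : Cod M R D τ W U) {N m : ℕ} (hN : R * (2 * D + 2) ≤ N) {w : List α}
    (hw : Slow N m w) (hm : m ≤ w.length) (x : V) (a0 : α) :
    w ∈ cat (PP M R D τ W m x a0) (cat (kst (KK M R D τ W U m))
      (SS M R D τ U m (cl M R D τ (run M R D τ (x, a0, 0) w)))) := by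
  have hR := h.hR
  have hNpos : 0 < N := lt_of_lt_of_le (Nat.mul_pos hR (by omega)) hN
  rcases first_run hNpos w with hno | ⟨u, a, l, z, rfl, hl, hu, hua, hz⟩
  · have := slow_length_lt hw (List.infix_refl w) hno
    omega
  · have hlpos : 0 < l := lt_of_lt_of_le hNpos hl
    have huw : u <:+: u ++ (List.replicate l a ++ z) := (List.prefix_append _ _).isInfix
    have hzw : z <:+: u ++ (List.replicate l a ++ z) := by
      rw [← List.append_assoc]; exact (List.suffix_append _ _).isInfix
    obtain ⟨i, hi, hiD, hW, hle, k, hk, s, hs, hks⟩ := h.cover hN (z.length + 1) z (by omega)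
      (cl M R D τ (run M R D τ (x, a0, 0) u)) a l hl hz (slow_infix hw hzw)
    refine ⟨u ++ List.replicate (R * i) a, ⟨u, a, i, rfl, slow_length_lt hw huw hu, hi, hiD, hua, hW⟩,
      k ++ s, ⟨k, hk, s, ?_, rfl⟩, ?_⟩
    · rw [← List.append_assoc, run_append, run_word_rep h.tau0 hlpos hua]
      exact hs
    · have e : List.replicate l a = List.replicate (R * i) a ++ List.replicate (l - R * i) a := by
        rw [← List.replicate_add]; congr 1; omega
      rw [hks, e]
      simp only [List.append_assoc]

end cover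

end Vale.Agent.P329.Slow
end

section

namespace Vale.Agent.P329.Slow

set_option linter.unusedSectionVars false
set_option linter.dupNamespace false

section cls

variable {α : Type}

/-- the closure properties used in the construction: stars are only applied to finite sets -/
structure Cls (P : Set (List α) → Prop) : Prop where
  empty : P ∅
  word : ∀ w : List α, P {w}
  compl : ∀ {A : Set (List α)}, P A → P Aᶜ
  union : ∀ {A B : Set (List α)}, P A → P B → P (A ∪ B)
  cat : ∀ {A B : Set (List α)}, P A → P B → P (cat A B)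
  kst : ∀ {A : Set (List α)}, A.Finite → P (kst A)

namespace Cls

variable {P : Set (List α) → Prop}

theorem univ (h : Cls P) : P Set.univ := by
  have := h.compl h.empty
  rwa [Set.compl_empty] at this

theorem inter (h : Cls P) {A B : Set (List α)} (hA : P A) (hB : P B) : P (A ∩ B) := by
  have := h.compl (h.union (h.compl hA) (h.compl hB))
  rwa [Set.compl_union, compl_compl, compl_compl] at this

theorem finite (h : Cls P) {A : Set (List α)} (hA : A.Finite) : P A := by
  induction A, hA using Set.Finite.induction_on with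
  | empty => exact h.empty
  | insert _ _ ih => exact h.union (h.word _) ih

theorem iUnion (h : Cls P) {ι : Type*} [Finite ι] {L : ι → Set (List α)} (hL : ∀ i, P (L i)) :
    P (⋃ i, L i) := by
  classical
  have := Fintype.ofFinite ι
  have key : ∀ s : Finset ι, P (⋃ i ∈ s, L i) := by
    intro s
    induction s using Finset.induction_on with
    | empty => simpa using h.empty
    | insert a s _ ih =>
      have e : (⋃ i ∈ insert a s, L i) = L a ∪ ⋃ i ∈ s, L i := by
        ext w; simp
      rw [e]
      exact h.union (hL a) ih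
  simpa using key Finset.univ

theorem iUnion_prop (h : Cls P) {p : Prop} {L : Set (List α)} (hL : p → P L) :
    P (⋃ _ : p, L) := by
  by_cases hp : p
  · simpa [hp] using hL hp
  · simpa [hp] using h.empty

end Cls

theorem finite_of_length [Finite α] {A : Set (List α)} (n : ℕ) (hA : ∀ w ∈ A, w.length ≤ n) :
    A.Finite :=
  (List.finite_length_le α n).subset hA

/-- the set of slow words -/
theorem Cls.slow [Finite α] {P : Set (List α) → Prop} (h : Cls P) (N m : ℕ) :
    P {w : List α | Slow N m w} := by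
  have hB : P {u : List α | u.length = m ∧ ¬ ∃ a, List.replicate N a <:+: u} :=
    h.finite (finite_of_length m fun w hw => hw.1.le)
  have h1 := h.compl (h.cat h.univ (h.cat hB h.univ))
  have e : {w : List α | Slow N m w} = (P329.cat Set.univ (P329.cat {u : List α | u.length = m ∧
      ¬ ∃ a, List.replicate N a <:+: u} Set.univ))ᶜ := by
    ext w
    constructor
    · rintro hw ⟨s, -, _, ⟨u, ⟨hu, hn⟩, t, -, rfl⟩, rfl⟩
      exact hn (hw u ⟨s, t, by simp⟩ hu)
    · intro hw u hu hm
      by_contra hn
      obtain ⟨s, t, rfl⟩ := hu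
      exact hw ⟨s, trivial, u ++ t, ⟨u, ⟨hm, hn⟩, t, trivial, rfl⟩, by simp⟩
  rw [e]
  exact h1

theorem SH.word (w : List α) : SH 0 ({w} : Set (List α)) := by
  induction w with
  | nil => exact SH.eps
  | cons a w ih =>
    have h := (SH.single (k := 0) a).cat ih
    have e : ({a :: w} : Set (List α)) = P329.cat {[a]} {w} := by
      ext v
      constructor
      · rintro rfl
        exact ⟨[a], rfl, w, rfl, rfl⟩
      · rintro ⟨_, rfl, _, rfl, rfl⟩
        rfl
    rw [e]
    exact h

theorem SH.finite0 {A : Set (List α)} (hA : A.Finite) : SH 0 A := by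
  have h := SH.biUnion (k := 0) hA.toFinset (L := fun w => ({w} : Set (List α)))
    (fun w _ => SH.word w)
  have e : A = ⋃ i ∈ hA.toFinset, {i} := by
    ext w
    simp
  rw [e]
  exact h

theorem cls_SH : Cls (fun A : Set (List α) => SH 1 A) where
  empty := SH.empty
  word w := (SH.word w).of_zero
  compl h := h.compl
  union h1 h2 := h1.union h2
  cat h1 h2 := h1.cat h2
  kst h := (SH.finite0 h).kst

end cls

section assemble

variable {α V : Type} [DecidableEq α] [AddCommGroup V]
variable {M : α → V →+ V} {R D : ℕ} {τ : ZMod D → V} {W U : ZMod D → Option V}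

theorem KK_length [Finite α] (_ : 0 < D) (m : ℕ) : ∀ k ∈ KK M R D τ W U m,
    k.length ≤ 2 * (R * D) + R + m := by
  rintro k (⟨a, rfl⟩ | ⟨b, j, r, u, a, i, c, rfl, -, hj, hr, hu, -, hi, -⟩)
  · rw [List.length_replicate]; omega
  · rw [List.length_append, List.length_append, List.length_replicate, List.length_replicate]
    have h1 : R * j ≤ R * D := Nat.mul_le_mul_left R hj
    have h2 : R * i ≤ R * D := Nat.mul_le_mul_left R hi
    omega

theorem PP_length [Finite α] (m : ℕ) (x : V) (a0 : α) : ∀ k ∈ PP M R D τ W m x a0,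
    k.length ≤ R * D + m := by
  rintro k ⟨u, a, i, rfl, hu, -, hi, -⟩
  rw [List.length_append, List.length_replicate]
  have h2 : R * i ≤ R * D := Nat.mul_le_mul_left R hi
  omega

theorem SS_length [Finite α] (m : ℕ) (v : V) : ∀ k ∈ SS M R D τ U m v,
    k.length ≤ R * D + R + m := by
  rintro k ⟨b, j, r, u, c, rfl, -, hj, hr, hu, -⟩
  rw [List.length_append, List.length_replicate]
  have h1 : R * j ≤ R * D := Nat.mul_le_mul_left R hj
  omega

theorem Cod.SH_val [Finite α] {P : Set (List α) → Prop} (hP : Cls P) (h : Cod M R D τ W U)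
    {N m : ℕ} (hN : R * (2 * D + 2) ≤ N) (x v : V) (a0 : α) :
    P {w : List α | Slow N m w ∧ cl M R D τ (run M R D τ (x, a0, 0) w) = v} := by
  have h1 : P (cat (PP M R D τ W m x a0) (cat (kst (KK M R D τ W U m)) (SS M R D τ U m v))) :=
    hP.cat (hP.finite (finite_of_length _ (PP_length m x a0)))
      (hP.cat (hP.kst (finite_of_length _ (KK_length h.hD m)))
        (hP.finite (finite_of_length _ (SS_length m v))))
  have h2 : P {w : List α | w.length < m ∧ Slow N m w ∧
      cl M R D τ (run M R D τ (x, a0, 0) w) = v} :=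
    hP.finite (finite_of_length m fun w hw => hw.1.le)
  have h3 := hP.union (hP.inter (hP.slow N m) h1) h2
  convert h3 using 1
  ext w
  constructor
  · rintro ⟨hs, hv⟩
    by_cases hw : w.length < m
    · exact Or.inr ⟨hw, hs, hv⟩
    · left
      refine ⟨hs, ?_⟩
      have := h.complete hN hs (by omega) x a0
      rwa [hv] at this
  · rintro (⟨hs, hw⟩ | ⟨-, hs, hv⟩)
    · exact ⟨hs, h.sound hw⟩
    · exact ⟨hs, hv⟩

/-- action of a word -/
def act (M : α → V →+ V) (w : List α) (x : V) : V := w.foldl (fun y a => M a y) x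

theorem cl_sub (x y : V) (a : α) (l : ℕ) :
    cl M R D τ (x, a, l) - cl M R D τ (y, a, l) = (M a)^[l] (x - y) := by
  show (M a)^[l] (x + τ ((l / R : ℕ) : ZMod D)) - (M a)^[l] (y + τ ((l / R : ℕ) : ZMod D)) = _
  rw [← iter_sub]
  congr 1
  abel

theorem run_sub (w : List α) (x y : V) (a : α) (l : ℕ) :
    cl M R D τ (run M R D τ (x, a, l) w) - cl M R D τ (run M R D τ (y, a, l) w) =
      act M w ((M a)^[l] (x - y)) := by
  induction w generalizing x y a l with
  | nil => rw [run_nil, run_nil, cl_sub]; rfl
  | cons b w ih =>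
    rw [run_cons, run_cons]
    by_cases hb : b = a
    · subst hb
      rw [step_eq, step_eq, ih, Function.iterate_succ_apply']
      rfl
    · rw [step_ne hb, step_ne hb, ih, cl_sub]
      rfl

theorem Cod.SH_act [Finite α] [Finite V] {P : Set (List α) → Prop} (hP : Cls P)
    (h : Cod M R D τ W U) {N m : ℕ}
    (hN : R * (2 * D + 2) ≤ N) (a0 : α) (x : V) (F : Set V) :
    P {w : List α | Slow N m w ∧ act M w x ∈ F} := by
  have h1 : P (⋃ v : V, ⋃ v' : V, ⋃ _ : v - v' ∈ F,
      ({w : List α | Slow N m w ∧ cl M R D τ (run M R D τ (x, a0, 0) w) = v} ∩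
       {w : List α | Slow N m w ∧ cl M R D τ (run M R D τ (0, a0, 0) w) = v'})) :=
    hP.iUnion fun v => hP.iUnion fun v' => hP.iUnion_prop fun _ =>
      hP.inter (h.SH_val hP hN x v a0) (h.SH_val hP hN 0 v' a0)
  convert h1 using 1
  ext w
  have h2 := run_sub (M := M) (R := R) (D := D) (τ := τ) w x 0 a0 0
  rw [sub_zero, Function.iterate_zero, id] at h2
  simp only [Set.mem_iUnion]
  constructor
  · rintro ⟨hs, hF⟩
    exact ⟨_, _, by rw [h2]; exact hF, ⟨hs, rfl⟩, ⟨hs, rfl⟩⟩
  · rintro ⟨v, v', hF, ⟨hs, rfl⟩, ⟨-, rfl⟩⟩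
    rw [h2] at hF
    exact ⟨hs, hF⟩

end assemble

end Vale.Agent.P329.Slow
end

section

/-! # P329: existence of `F_2^d`-valued codings on `ZMod D` (construction of helper701) -/

namespace Vale.Agent.P329.Slow

namespace Coding

/-- `W, U` is a coding with link `τ`. -/
def IsCod {A V : Type} [AddCommGroup A] [AddCommGroup V] (W U : A → Option V) (τ : A → V) : Prop :=
  (∀ i j y c, W i = some y → U j = some c → c = y + τ (i + j)) ∧
    ∀ k y, ∃ i c, W i = some y ∧ U (k - i) = some c

/-- there is a coding on `A` with values in `V` -/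
def HasCod (A V : Type) [AddCommGroup A] [AddCommGroup V] : Prop :=
  ∃ (W U : A → Option V) (τ : A → V), IsCod W U τ

variable {A V A' V' : Type} [AddCommGroup A] [AddCommGroup V] [AddCommGroup A'] [AddCommGroup V']

lemma HasCod.prod (h : HasCod A V) (h' : HasCod A' V') : HasCod (A × A') (V × V') := by
  obtain ⟨W, U, τ, hl, hf⟩ := h
  obtain ⟨W', U', τ', hl', hf'⟩ := h'
  refine ⟨fun x => (W x.1).bind fun y => (W' x.2).map fun y' => (y, y'),
    fun x => (U x.1).bind fun y => (U' x.2).map fun y' => (y, y'),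
    fun x => (τ x.1, τ' x.2), ?_, ?_⟩
  · rintro ⟨i, i'⟩ ⟨j, j'⟩ ⟨y, y'⟩ ⟨c, c'⟩ h1 h2
    simp only [Option.bind_eq_some_iff, Option.map_eq_some_iff, Prod.mk.injEq] at h1 h2
    obtain ⟨a, ha, b, hb, rfl, rfl⟩ := h1
    obtain ⟨a', ha', b', hb', rfl, rfl⟩ := h2
    exact Prod.ext (hl i j _ _ ha ha') (hl' i' j' _ _ hb hb')
  · rintro ⟨k, k'⟩ ⟨y, y'⟩
    obtain ⟨i, c, h1, h2⟩ := hf k y
    obtain ⟨i', c', h1', h2'⟩ := hf' k' y'
    exact ⟨(i, i'), (c, c'), by simp [h1, h1'], by simp [h2, h2']⟩

lemma HasCod.congr (h : HasCod A V) (e : A ≃+ A') (f : V ≃+ V') : HasCod A' V' := by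
  obtain ⟨W, U, τ, hl, hf⟩ := h
  refine ⟨fun x => (W (e.symm x)).map f, fun x => (U (e.symm x)).map f,
    fun x => f (τ (e.symm x)), ?_, ?_⟩
  · intro i j y c h1 h2
    simp only [Option.map_eq_some_iff] at h1 h2
    obtain ⟨a, ha, rfl⟩ := h1
    obtain ⟨b, hb, rfl⟩ := h2
    rw [hl _ _ _ _ ha hb, map_add, ← map_add e.symm]
  · intro k y
    obtain ⟨i, c, h1, h2⟩ := hf (e.symm k) (f.symm y)
    refine ⟨e i, f c, ?_, ?_⟩
    · simp [h1]
    · simp [h2, map_sub]

lemma HasCod.norm (h : HasCod A V) : ∃ (W U : A → Option V) (τ : A → V), IsCod W U τ ∧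
    W 0 = some 0 ∧ U 0 = some 0 := by
  obtain ⟨W, U, τ, hl, hf⟩ := h
  obtain ⟨i0, c0, h1, h2⟩ := hf 0 0
  rw [zero_sub] at h2
  refine ⟨fun i => W (i + i0), fun j => (U (j - i0)).map fun c => c - c0, fun k => τ k - c0,
    ⟨?_, ?_⟩, ?_, ?_⟩
  · intro i j y c hi hj
    simp only [Option.map_eq_some_iff] at hj
    obtain ⟨b, hb, rfl⟩ := hj
    have h3 := hl _ _ _ _ hi hb
    rw [show i + i0 + (j - i0) = i + j by abel] at h3
    rw [h3, add_sub_assoc]
  · intro k y
    obtain ⟨i, c, h3, h4⟩ := hf k y
    refine ⟨i - i0, c - c0, by simpa using h3, ?_⟩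
    change (U (k - (i - i0) - i0)).map (fun c => c - c0) = _
    rw [show k - (i - i0) - i0 = k - i by abel, h4]
    rfl
  · simpa using h1
  · simp [h2]

/-! ### the basic coding on `ZMod (2h+1) × ZMod p` -/

/-- labels of `S` (first coordinate `a`, `z` = the second coordinate is zero) -/
def sl (h a : ℕ) (z : Prop) [Decidable z] : Option ℕ :=
  if z then (if 3 ≤ a ∧ a + 2 ≤ 2 * h then some a else none)
  else if a = 1 then some 0 else if a = 2 * h then some 1 else none

/-- labels of `T` -/
def tl (h b : ℕ) (z : Prop) [Decidable z] : Option ℕ :=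
  if z then (if b + 2 = h ∨ b + 1 = h ∨ b = h + 2 ∨ b = h + 3 then some b else none)
  else if b = h then some 0 else if b = h + 1 then some 1 else none

/-- the link -/
def vl (h j : ℕ) (z : Prop) [Decidable z] : ℕ :=
  if z then (if j ≤ h then j else j + 1)
  else if j + 2 ≤ h then j + 1 else if h + 3 ≤ j then j
  else if j + 1 = h ∨ j = h + 2 then 0 else 1

lemma link_nat {h g a b e : ℕ} (hg : h = 2 * g + 1) (h5 : 5 ≤ h)
    (hab : a + e = b ∨ a + e = b + (2 * h + 1)) (he : e ≤ 2 * h)
    (s0 t0 z0 : Prop) [Decidable s0] [Decidable t0] [Decidable z0]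
    (h1 : s0 → (z0 ↔ t0)) (h2 : t0 → (z0 ↔ s0)) {l l' : ℕ} (hl : sl h a s0 = some l)
    (hl' : tl h b t0 = some l') : l' % 2 = (l + vl h e z0) % 2 := by
  -- `S`
  have hS : (s0 ∧ 3 ≤ a ∧ a + 2 ≤ 2 * h ∧ l = a) ∨ (¬ s0 ∧ a = 1 ∧ l = 0) ∨
      (¬ s0 ∧ a = 2 * h ∧ l = 1) := by
    unfold sl at hl
    by_cases hs : s0
    · rw [if_pos hs] at hl
      split_ifs at hl with h3
      exact Or.inl ⟨hs, h3.1, h3.2, (Option.some.inj hl).symm⟩
    · rw [if_neg hs] at hl
      split_ifs at hl with h3 h4
      · exact Or.inr (Or.inl ⟨hs, h3, (Option.some.inj hl).symm⟩)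
      · exact Or.inr (Or.inr ⟨hs, h4, (Option.some.inj hl).symm⟩)
  have hT : (t0 ∧ (b + 2 = h ∨ b + 1 = h ∨ b = h + 2 ∨ b = h + 3) ∧ l' = b) ∨
      (¬ t0 ∧ b = h ∧ l' = 0) ∨ (¬ t0 ∧ b = h + 1 ∧ l' = 1) := by
    unfold tl at hl'
    by_cases ht : t0
    · rw [if_pos ht] at hl'
      split_ifs at hl' with h3
      exact Or.inl ⟨ht, h3, (Option.some.inj hl').symm⟩
    · rw [if_neg ht] at hl'
      split_ifs at hl' with h3 h4
      · exact Or.inr (Or.inl ⟨ht, h3, (Option.some.inj hl').symm⟩)
      · exact Or.inr (Or.inr ⟨ht, h4, (Option.some.inj hl').symm⟩)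
  have hZ : (z0 ∧ ((e ≤ h ∧ vl h e z0 = e) ∨ (h + 1 ≤ e ∧ vl h e z0 = e + 1))) ∨
      (¬ z0 ∧ ((e + 2 ≤ h ∧ vl h e z0 = e + 1) ∨ (h + 3 ≤ e ∧ vl h e z0 = e) ∨
        ((e + 1 = h ∨ e = h + 2) ∧ vl h e z0 = 0) ∨ ((e = h ∨ e = h + 1) ∧ vl h e z0 = 1))) := by
    unfold vl
    by_cases hz : z0
    · left
      refine ⟨hz, ?_⟩
      rw [if_pos hz]
      by_cases h3 : e ≤ h
      · left; exact ⟨h3, if_pos h3⟩
      · right; exact ⟨by omega, if_neg h3⟩
    · right
      refine ⟨hz, ?_⟩
      rw [if_neg hz]
      by_cases h3 : e + 2 ≤ h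
      · left; exact ⟨h3, if_pos h3⟩
      · by_cases h4 : h + 3 ≤ e
        · right; left; exact ⟨h4, by rw [if_neg h3, if_pos h4]⟩
        · by_cases h5 : e + 1 = h ∨ e = h + 2
          · right; right; left; exact ⟨h5, by rw [if_neg h3, if_neg h4, if_pos h5]⟩
          · right; right; right
            exact ⟨by omega, by rw [if_neg h3, if_neg h4, if_neg h5]⟩
  generalize vl h e z0 = v at hZ ⊢
  rcases hS with ⟨hs, hS⟩ | ⟨hs, hS⟩ | ⟨hs, hS⟩ <;> rcases hT with ⟨ht, hT⟩ | ⟨ht, hT⟩ | ⟨ht, hT⟩
  · rcases hZ with ⟨hz, hZ⟩ | ⟨hz, hZ⟩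
    · omega
    · exact absurd ((h1 hs).2 ht) hz
  · rcases hZ with ⟨hz, hZ⟩ | ⟨hz, hZ⟩
    · exact absurd ((h1 hs).1 hz) ht
    · omega
  · rcases hZ with ⟨hz, hZ⟩ | ⟨hz, hZ⟩
    · exact absurd ((h1 hs).1 hz) ht
    · omega
  · rcases hZ with ⟨hz, hZ⟩ | ⟨hz, hZ⟩
    · exact absurd ((h2 ht).1 hz) hs
    · omega
  · rcases hZ with ⟨hz, hZ⟩ | ⟨hz, hZ⟩ <;> omega
  · rcases hZ with ⟨hz, hZ⟩ | ⟨hz, hZ⟩ <;> omega
  · rcases hZ with ⟨hz, hZ⟩ | ⟨hz, hZ⟩
    · exact absurd ((h2 ht).1 hz) hs
    · omega
  · rcases hZ with ⟨hz, hZ⟩ | ⟨hz, hZ⟩ <;> omega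
  · rcases hZ with ⟨hz, hZ⟩ | ⟨hz, hZ⟩ <;> omega

/-- available pair of labels -/
def Av (h e l : ℕ) (s0 t0 : Prop) [Decidable s0] [Decidable t0] : Prop :=
  ∃ a b, a ≤ 2 * h ∧ b ≤ 2 * h ∧ (a + e = b ∨ a + e = b + (2 * h + 1)) ∧
    (∃ l1, sl h a s0 = some l1 ∧ l1 % 2 = l) ∧ ∃ l2, tl h b t0 = some l2

lemma av_mk {h e l : ℕ} (s0 t0 : Prop) [Decidable s0] [Decidable t0] (a b : ℕ)
    (ha : a ≤ 2 * h) (hb : b ≤ 2 * h) (hab : a + e = b ∨ a + e = b + (2 * h + 1))
    (l1 l2 : ℕ) (h1 : sl h a s0 = some l1) (hl : l1 % 2 = l) (h2 : tl h b t0 = some l2) :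
    Av h e l s0 t0 := ⟨a, b, ha, hb, hab, ⟨l1, h1, hl⟩, l2, h2⟩

lemma sl0 {h a : ℕ} (h1 : 3 ≤ a) (h2 : a + 2 ≤ 2 * h) : sl h a True = some a := by
  simp [sl, h1, h2]

lemma tl0 {h b : ℕ} (h1 : b + 2 = h ∨ b + 1 = h ∨ b = h + 2 ∨ b = h + 3) :
    tl h b True = some b := by
  simp [tl, h1]

lemma sl1 {h : ℕ} : sl h 1 False = some 0 := by simp [sl]
lemma sl2 {h : ℕ} (h5 : 5 ≤ h) : sl h (2 * h) False = some 1 := by
  have : ¬ 2 * h = 1 := by omega
  simp [sl, this]
lemma tl1 {h : ℕ} : tl h h False = some 0 := by simp [tl]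
lemma tl2 {h : ℕ} : tl h (h + 1) False = some 1 := by simp [tl]

lemma full_nat0 {h g e l : ℕ} (hg : h = 2 * g + 1) (h5 : 5 ≤ h) (he : e ≤ 2 * h) (hl : l < 2) :
    Av h e l True True ∨ Av h e l False False := by
  by_cases c1 : e + 1 ≤ h
  · left
    by_cases c2 : (h + 2 - e) % 2 = l
    · exact av_mk _ _ (h + 2 - e) (h + 2) (by omega) (by omega) (by omega) _ _
        (sl0 (by omega) (by omega)) c2 (tl0 (by omega))
    · exact av_mk _ _ (h + 3 - e) (h + 3) (by omega) (by omega) (by omega) _ _
        (sl0 (by omega) (by omega)) (by omega) (tl0 (by omega))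
  by_cases c3 : e = h
  · have hl' : l = 0 ∨ l = 1 := by omega
    rcases hl' with rfl | rfl
    · right
      exact av_mk _ _ 1 (h + 1) (by omega) (by omega) (by omega) _ _ sl1 rfl tl2
    · left
      exact av_mk _ _ 3 (h + 3) (by omega) (by omega) (by omega) _ _
        (sl0 (by omega) (by omega)) rfl (tl0 (by omega))
  by_cases c4 : e = h + 1
  · have hl' : l = 0 ∨ l = 1 := by omega
    rcases hl' with rfl | rfl
    · left
      exact av_mk _ _ (2 * h - 2) (h - 2) (by omega) (by omega) (by omega) _ _
        (sl0 (by omega) (by omega)) (by omega) (tl0 (by omega))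
    · right
      exact av_mk _ _ (2 * h) h (by omega) (by omega) (by omega) _ _ (sl2 h5) rfl tl1
  left
  by_cases c2 : (3 * h - 1 - e) % 2 = l
  · exact av_mk _ _ (3 * h - 1 - e) (h - 2) (by omega) (by omega) (by omega) _ _
      (sl0 (by omega) (by omega)) c2 (tl0 (by omega))
  · exact av_mk _ _ (3 * h - e) (h - 1) (by omega) (by omega) (by omega) _ _
      (sl0 (by omega) (by omega)) (by omega) (tl0 (by omega))

lemma full_nat1 {h g e l : ℕ} (hg : h = 2 * g + 1) (h5 : 5 ≤ h) (he : e ≤ 2 * h) (hl : l < 2) :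
    Av h e l True False ∨ Av h e l False True ∨ Av h e l False False := by
  have hl' : l = 0 ∨ l = 1 := by omega
  by_cases c1 : e + 3 ≤ h
  · left
    by_cases c2 : (h - e) % 2 = l
    · exact av_mk _ _ (h - e) h (by omega) (by omega) (by omega) _ _
        (sl0 (by omega) (by omega)) c2 tl1
    · exact av_mk _ _ (h + 1 - e) (h + 1) (by omega) (by omega) (by omega) _ _
        (sl0 (by omega) (by omega)) (by omega) tl2
  by_cases c2 : h + 4 ≤ e
  · left
    by_cases c2 : (3 * h + 1 - e) % 2 = l
    · exact av_mk _ _ (3 * h + 1 - e) h (by omega) (by omega) (by omega) _ _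
        (sl0 (by omega) (by omega)) c2 tl1
    · exact av_mk _ _ (3 * h + 2 - e) (h + 1) (by omega) (by omega) (by omega) _ _
        (sl0 (by omega) (by omega)) (by omega) tl2
  have hc : e = h - 2 ∨ e = h - 1 ∨ e = h ∨ e = h + 1 ∨ e = h + 2 ∨ e = h + 3 := by omega
  rcases hc with hc | hc | hc | hc | hc | hc
  · rcases hl' with rfl | rfl
    · right; left
      exact av_mk _ _ 1 (h - 1) (by omega) (by omega) (by omega) _ _ sl1 rfl (tl0 (by omega))
    · left
      exact av_mk _ _ 3 (h + 1) (by omega) (by omega) (by omega) _ _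
        (sl0 (by omega) (by omega)) rfl tl2
  · rcases hl' with rfl | rfl
    · right; right
      exact av_mk _ _ 1 h (by omega) (by omega) (by omega) _ _ sl1 rfl tl1
    · right; left
      exact av_mk _ _ (2 * h) (h - 2) (by omega) (by omega) (by omega) _ _ (sl2 h5) rfl
        (tl0 (by omega))
  · rcases hl' with rfl | rfl
    · right; right
      exact av_mk _ _ 1 (h + 1) (by omega) (by omega) (by omega) _ _ sl1 rfl tl2
    · right; left
      exact av_mk _ _ (2 * h) (h - 1) (by omega) (by omega) (by omega) _ _ (sl2 h5) rfl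
        (tl0 (by omega))
  · rcases hl' with rfl | rfl
    · right; left
      exact av_mk _ _ 1 (h + 2) (by omega) (by omega) (by omega) _ _ sl1 rfl (tl0 (by omega))
    · right; right
      exact av_mk _ _ (2 * h) h (by omega) (by omega) (by omega) _ _ (sl2 h5) rfl tl1
  · rcases hl' with rfl | rfl
    · right; left
      exact av_mk _ _ 1 (h + 3) (by omega) (by omega) (by omega) _ _ sl1 rfl (tl0 (by omega))
    · right; right
      exact av_mk _ _ (2 * h) (h + 1) (by omega) (by omega) (by omega) _ _ (sl2 h5) rfl tl2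
  · rcases hl' with rfl | rfl
    · left
      exact av_mk _ _ (2 * h - 2) h (by omega) (by omega) (by omega) _ _
        (sl0 (by omega) (by omega)) (by omega) tl1
    · right; left
      exact av_mk _ _ (2 * h) (h + 2) (by omega) (by omega) (by omega) _ _ (sl2 h5) rfl
        (tl0 (by omega))

/-- in a group with two different nonzero elements -/
theorem basic (h g : ℕ) (hg : h = 2 * g + 1) (h5 : 5 ≤ h) {Y : Type} [AddCommGroup Y]
    [DecidableEq Y] (y1 y2 : Y) (hy1 : y1 ≠ 0) (hy2 : y2 ≠ 0) (hy : y1 ≠ y2) :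
    HasCod (ZMod (2 * h + 1) × Y) (ZMod 2) := by
  have hm : ∀ x : ZMod (2 * h + 1), x.val ≤ 2 * h := fun x => by
    have := ZMod.val_lt x
    omega
  have hadd : ∀ x y : ZMod (2 * h + 1), x.val + y.val = (x + y).val ∨
      x.val + y.val = (x + y).val + (2 * h + 1) := by
    intro x y
    have h1 := hm x
    have h2 := hm y
    rw [ZMod.val_add]
    rcases lt_or_ge (x.val + y.val) (2 * h + 1) with h3 | h3
    · left; rw [Nat.mod_eq_of_lt h3]
    · right
      rw [Nat.mod_eq_sub_mod h3, Nat.mod_eq_of_lt (by omega)]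
      omega
  refine ⟨fun x => (sl h (-x.1).val (x.2 = 0)).map (fun n : ℕ => (n : ZMod 2)),
    fun x => (tl h x.1.val (x.2 = 0)).map (fun n : ℕ => (n : ZMod 2)),
    fun x => ((vl h x.1.val (x.2 = 0) : ℕ) : ZMod 2), ?_, ?_⟩
  · rintro ⟨i, i'⟩ ⟨j, j'⟩ y c h1 h2
    simp only [Option.map_eq_some_iff] at h1 h2
    obtain ⟨l, hl, rfl⟩ := h1
    obtain ⟨l', hl', rfl⟩ := h2
    have h3 := hadd (-i) (i + j)
    rw [neg_add_cancel_left] at h3
    have h4 := link_nat hg h5 h3 (hm _) (i' = 0) (j' = 0) (i' + j' = 0)
      (fun hi => by rw [hi, zero_add]) (fun hj => by rw [hj, add_zero]) hl hl'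
    rw [← Nat.cast_add, ZMod.natCast_eq_natCast_iff']
    exact h4
  · -- all labels occur
    rintro ⟨k, k'⟩ y
    have hy0 : y.val < 2 := ZMod.val_lt y
    have hval : ∀ a : ℕ, a ≤ 2 * h → ((a : ℕ) : ZMod (2 * h + 1)).val = a := fun a ha =>
      ZMod.val_cast_of_lt (by omega)
    -- from an available pair to the indices
    have key : ∀ (s0 t0 : Prop) [Decidable s0] [Decidable t0] (y' : Y), (s0 ↔ y' = 0) →
        (t0 ↔ k' - y' = 0) → Av h k.val y.val s0 t0 → ∃ i c,
          (sl h (-i.1).val (i.2 = 0)).map (fun n : ℕ => (n : ZMod 2)) = some y ∧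
          (tl h ((k, k') - i).1.val (((k, k') - i : ZMod (2 * h + 1) × Y).2 = 0)).map
            (fun n : ℕ => (n : ZMod 2)) = some c := by
      rintro s0 t0 _ _ y' hs ht ⟨a, b, ha, hb, hab, ⟨l1, h1, h1'⟩, l2, h2⟩
      refine ⟨(-(a : ZMod (2 * h + 1)), y'), (l2 : ZMod 2), ?_, ?_⟩
      · simp only [neg_neg]
        rw [hval a ha]
        have h3 : sl h a (y' = 0) = sl h a s0 := by
          unfold sl
          by_cases hh : s0
          · rw [if_pos hh, if_pos (hs.1 hh)]
          · rw [if_neg hh, if_neg (fun h4 => hh (hs.2 h4))]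
        rw [h3, h1, Option.map_some]
        congr 1
        rw [← ZMod.natCast_zmod_val y, ZMod.natCast_eq_natCast_iff', h1', Nat.mod_eq_of_lt hy0]
      · simp only [Prod.mk_sub_mk, sub_neg_eq_add]
        have h4 : (k + (a : ZMod (2 * h + 1))).val = b := by
          have h5 := hadd (a : ZMod (2 * h + 1)) k
          rw [hval a ha, add_comm (a : ZMod (2 * h + 1)) k] at h5
          have h6 := hm (k + (a : ZMod (2 * h + 1)))
          omega
        rw [h4]
        have h3 : tl h b (k' - y' = 0) = tl h b t0 := by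
          unfold tl
          by_cases hh : t0
          · rw [if_pos hh, if_pos (ht.1 hh)]
          · rw [if_neg hh, if_neg (fun h4 => hh (ht.2 h4))]
        rw [h3, h2, Option.map_some]
    by_cases hk : k' = 0
    · subst hk
      rcases full_nat0 hg h5 (hm k) hy0 with h1 | h1
      · exact key True True 0 (by simp) (by simp) h1
      · exact key False False y1 (by simp [hy1]) (by simp [hy1]) h1
    · rcases full_nat1 hg h5 (hm k) hy0 with h1 | h1 | h1
      · exact key True False 0 (by simp) (by simp [hk]) h1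
      · exact key False True k' (by simp [hk]) (by simp) h1
      · by_cases h2 : k' = y1
        · refine key False False y2 (by simp [hy2]) ?_ h1
          simp only [false_iff]
          rw [h2, sub_eq_zero]
          exact hy
        · refine key False False y1 (by simp [hy1]) ?_ h1
          simp only [false_iff]
          rw [sub_eq_zero]
          exact h2

lemma basic_zmod (D : ℕ) (hD : 0 < D) :
    HasCod (ZMod ((12 * D - 1) * (12 * D * (12 * D - 1) + 1))) (ZMod 2) := by
  set m := 12 * D - 1 with hm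
  set p := 12 * D * m + 1 with hp
  have hm' : m = 2 * (6 * D - 1) + 1 := by omega
  have hmp : 11 ≤ m := by omega
  have hp3 : 3 ≤ p := by
    have : 1 * 11 ≤ 12 * D * m := Nat.mul_le_mul (by omega) hmp
    omega
  have hcop : Nat.Coprime m p := by
    rw [hp]
    exact (Nat.coprime_mul_right_add_right m 1 (12 * D)).mpr (Nat.coprime_one_right m)
  have h1 : (1 : ZMod p) ≠ 0 := by
    intro h
    have h2 : ((1 : ℕ) : ZMod p) = 0 := by simpa using h
    rw [ZMod.natCast_eq_zero_iff] at h2
    have := Nat.le_of_dvd one_pos h2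
    omega
  have h2 : (2 : ZMod p) ≠ 0 := by
    intro h
    have h2 : ((2 : ℕ) : ZMod p) = 0 := by simpa using h
    rw [ZMod.natCast_eq_zero_iff] at h2
    have := Nat.le_of_dvd two_pos h2
    omega
  have h3 : (1 : ZMod p) ≠ 2 := by
    intro h
    have h4 : (1 : ZMod p) + 0 = 1 + 1 := by rw [add_zero, one_add_one_eq_two]; exact h
    exact h1 (add_left_cancel h4).symm
  have h4 : HasCod (ZMod m × ZMod p) (ZMod 2) := by
    have := basic (6 * D - 1) (3 * D - 1) (by omega) (by omega) (1 : ZMod p) 2 h1 h2 h3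
    rwa [← hm'] at this
  exact h4.congr (ZMod.chineseRemainder hcop).toAddEquiv.symm (AddEquiv.refl _)

/-- splitting off the first coordinate -/
def consEquiv (d : ℕ) : ZMod 2 × (Fin d → ZMod 2) ≃+ (Fin (d + 1) → ZMod 2) where
  toFun x := Fin.cons x.1 x.2
  invFun v := (v 0, fun i => v i.succ)
  left_inv x := by ext <;> simp
  right_inv v := by
    funext i
    refine Fin.cases ?_ (fun i => ?_) i <;> simp
  map_add' x y := by
    funext i
    refine Fin.cases ?_ (fun i => ?_) i <;> simp

theorem exists_hasCod (d : ℕ) : ∃ D : ℕ, 0 < D ∧ HasCod (ZMod D) (Fin d → ZMod 2) := by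
  induction d with
  | zero =>
    refine ⟨1, one_pos, fun _ => some 0, fun _ => some 0, fun _ => 0, ?_, ?_⟩
    · intro i j y c _ _
      exact Subsingleton.elim _ _
    · intro k y
      exact ⟨0, 0, by rw [Subsingleton.elim y 0], rfl⟩
  | succ d ih =>
    obtain ⟨D, hD, hc⟩ := ih
    set m := 12 * D - 1 with hm
    set p := 12 * D * m + 1 with hp
    have hb := basic_zmod D hD
    rw [← hm, ← hp] at hb
    have hmp : 11 ≤ m := by omega
    have c1 : Nat.Coprime m D := by
      have h1 : m + 1 = 12 * D := by omega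
      have h2 : Nat.Coprime m (m + 1) := by simp
      rw [h1] at h2
      exact Nat.Coprime.coprime_mul_left_right h2
    have c2 : Nat.Coprime p D := by
      have h1 : Nat.Coprime (D * (12 * m) + 1) D := by
        rw [Nat.coprime_mul_left_add_left]
        exact Nat.coprime_one_left D
      have h2 : D * (12 * m) + 1 = p := by rw [hp]; ring
      rwa [h2] at h1
    have c3 : Nat.Coprime (m * p) D := Nat.Coprime.mul_left c1 c2
    refine ⟨m * p * D, by positivity, ?_⟩
    exact (hb.prod hc).congr (ZMod.chineseRemainder c3).toAddEquiv.symm (consEquiv d)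

end Coding

open Coding in
/-- **S1** existence of codings -/
theorem exists_coding (d : ℕ) : ∃ D : ℕ, 0 < D ∧ ∃ (W U : ZMod D → Option (Fin d → ZMod 2))
    (tau : ZMod D → (Fin d → ZMod 2)),
    (∀ i j y c, W i = some y → U j = some c → c = y + tau (i + j)) ∧
    (∀ k y, ∃ i c, W i = some y ∧ U (k - i) = some c) ∧ W 0 = some 0 ∧ U 0 = some 0 := by
  obtain ⟨D, hD, h⟩ := exists_hasCod d
  obtain ⟨W, U, τ, ⟨hl, hf⟩, h1, h2⟩ := h.norm
  exact ⟨D, hD, W, U, τ, hl, hf, h1, h2⟩

end Vale.Agent.P329.Slow
end

section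

namespace Vale.Agent.P329.Slow

set_option linter.unusedSectionVars false
set_option linter.dupNamespace false

/-- a common exponent making all letters idempotent -/
theorem exists_idem {α V : Type} [Finite α] [Finite V] (f : α → V → V) :
    ∃ R : ℕ, 0 < R ∧ ∀ a x, (f a)^[R] ((f a)^[R] x) = (f a)^[R] x := by
  obtain ⟨i, j, hij, h⟩ := Finite.exists_ne_map_eq_of_infinite
    (fun (k : ℕ) (a : α) (x : V) => (f a)^[k] x)
  wlog hlt : i < j generalizing i j
  · exact this j i hij.symm h.symm (by omega)
  obtain ⟨p, rfl⟩ : ∃ p, j = i + (p + 1) := ⟨j - i - 1, by omega⟩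
  have h1 : ∀ a x, (f a)^[i + (p + 1)] x = (f a)^[i] x := fun a x =>
    (congrFun (congrFun h a) x).symm
  have h2 : ∀ k a x, (f a)^[i + k + (p + 1)] x = (f a)^[i + k] x := by
    intro k a x
    have e1 : i + k + (p + 1) = k + (i + (p + 1)) := by omega
    rw [e1, Function.iterate_add_apply, h1, ← Function.iterate_add_apply, add_comm k i]
  have h3 : ∀ q k a x, (f a)^[i + k + q * (p + 1)] x = (f a)^[i + k] x := by
    intro q
    induction q with
    | zero => intro k a x; simp
    | succ q ih =>
      intro k a x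
      have e1 : i + k + (q + 1) * (p + 1) = i + (k + (p + 1)) + q * (p + 1) := by ring
      rw [e1, ih, ← add_assoc, h2]
  refine ⟨(i + 1) * (p + 1), by positivity, fun a x => ?_⟩
  rw [← Function.iterate_add_apply]
  obtain ⟨k, hk⟩ : ∃ k, (i + 1) * (p + 1) = i + k := ⟨(i + 1) * (p + 1) - i, by
    have : i + 1 ≤ (i + 1) * (p + 1) := Nat.le_mul_of_pos_right _ (by omega)
    omega⟩
  have := h3 (i + 1) k a x
  rw [← hk] at this
  exact this

section dfa

variable {α : Type} {d : ℕ}

/-- pushforward of a vector along one letter -/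
def push (δ : Fin d → α → Fin d) (b : α) : (Fin d → ZMod 2) →+ (Fin d → ZMod 2) where
  toFun v := fun q' => ∑ q : Fin d, if δ q b = q' then v q else 0
  map_zero' := by
    funext q'
    simp
  map_add' v w := by
    funext q'
    simp only [Pi.add_apply]
    rw [← Finset.sum_add_distrib]
    refine Finset.sum_congr rfl fun q _ => ?_
    split <;> simp

theorem push_single (δ : Fin d → α → Fin d) (b : α) (q : Fin d) :
    push δ b (Pi.single q 1) = Pi.single (δ q b) 1 := by
  funext q'
  show (∑ x : Fin d, if δ x b = q' then (Pi.single q 1 : Fin d → ZMod 2) x else 0) = _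
  rw [Finset.sum_eq_single q]
  · by_cases h : δ q b = q'
    · subst h; simp
    · rw [if_neg h, Pi.single_eq_of_ne (Ne.symm h)]
  · intro x _ hx
    rw [Pi.single_eq_of_ne hx]; simp
  · intro h; exact absurd (Finset.mem_univ _) h

theorem act_single (δ : Fin d → α → Fin d) (w : List α) (q : Fin d) :
    act (push δ) w (Pi.single q 1) = Pi.single (w.foldl δ q) 1 := by
  induction w generalizing q with
  | nil => rfl
  | cons b w ih =>
    show act (push δ) w (push δ b (Pi.single q 1)) = _
    rw [push_single, ih]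
    rfl

end dfa

theorem slow_regular_cls {α : Type} [Finite α] {P : Set (List α) → Prop} (hP : Cls P)
    (L : Language α) (hL : L.IsRegular) : ∃ N₀ : ℕ, ∀ N : ℕ, N₀ ≤ N → ∀ m : ℕ,
      P {w : List α | w ∈ L ∧ Slow N m w} := by
  classical
  obtain ⟨σ, hσ, A, rfl⟩ := hL
  rcases isEmpty_or_nonempty α with hα | ⟨⟨a0⟩⟩
  · refine ⟨0, fun N _ m => hP.finite (finite_of_length 0 fun w _ => ?_)⟩
    cases w with
    | nil => simp
    | cons a w => exact (hα.false a).elim
  · let e : σ ≃ Fin (Fintype.card σ) := Fintype.equivFin σ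
    let δ : Fin (Fintype.card σ) → α → Fin (Fintype.card σ) := fun q a => e (A.step (e.symm q) a)
    obtain ⟨D, hD, W, U, τ, h1, h2, h3, h4⟩ := exists_coding (Fintype.card σ)
    obtain ⟨R, hR, hidem⟩ := exists_idem (fun (a : α) (x : Fin (Fintype.card σ) → ZMod 2) =>
      push δ a x)
    have h : Cod (push δ) R D τ W U := ⟨hR, hD, hidem, h1, h2, h3, h4⟩
    refine ⟨R * (2 * D + 2), fun N hN m => ?_⟩
    have h5 := h.SH_act hP hN (m := m) a0 (Pi.single (e A.start) 1)
      {v | ∃ q ∈ A.accept, v = Pi.single (e q) 1}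
    have h6 : ∀ (w : List α) (q : σ), w.foldl δ (e q) = e (w.foldl A.step q) := by
      intro w
      induction w with
      | nil => intro q; rfl
      | cons a w ih =>
        intro q
        rw [List.foldl_cons, List.foldl_cons, ← ih]
        show List.foldl δ (e (A.step (e.symm (e q)) a)) w = _
        rw [Equiv.symm_apply_apply]
    convert h5 using 1
    ext w
    constructor
    · rintro ⟨hw, hs⟩
      refine ⟨hs, w.foldl A.step A.start, hw, ?_⟩
      rw [act_single, h6]
    · rintro ⟨hs, q, hq, hw⟩
      refine ⟨?_, hs⟩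
      rw [act_single, h6] at hw
      have h7 : e (w.foldl A.step A.start) = e q := by
        by_contra hne
        have h8 := congrFun hw (e q)
        rw [Pi.single_eq_same, Pi.single_eq_of_ne (Ne.symm hne)] at h8
        exact zero_ne_one h8
      have h9 := e.injective h7
      show w.foldl A.step A.start ∈ A.accept
      rw [h9]; exact hq

theorem slow_regular {α : Type} [Finite α] (L : Language α)
    (hL : L.IsRegular) : ∃ N₀ : ℕ, ∀ N : ℕ, N₀ ≤ N → ∀ m : ℕ,
      SH 1 {w : List α | w ∈ L ∧ Slow N m w} := slow_regular_cls cls_SH L hL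

end Vale.Agent.P329.Slow
end

section

namespace Vale.Agent.P329.Slow

set_option linter.unusedSectionVars false

section phi

variable {α : Type} {q : ℕ}

/-- concatenation of blocks of length `q` -/
def phi (w : List (Fin q → α)) : List α := (w.map List.ofFn).flatten

theorem phi_nil : phi ([] : List (Fin q → α)) = [] := rfl

theorem phi_cons (b : Fin q → α) (w : List (Fin q → α)) : phi (b :: w) = List.ofFn b ++ phi w := rfl

theorem phi_append (u v : List (Fin q → α)) : phi (u ++ v) = phi u ++ phi v := by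
  simp [phi]

theorem phi_length (w : List (Fin q → α)) : (phi w).length = q * w.length := by
  induction w with
  | nil => simp [phi_nil]
  | cons b w ih => rw [phi_cons, List.length_append, ih, List.length_ofFn, List.length_cons]; ring

theorem phi_flatten (L : List (List (Fin q → α))) : phi L.flatten = (L.map phi).flatten := by
  induction L with
  | nil => rfl
  | cons u L ih => rw [List.flatten_cons, phi_append, ih]; rfl

theorem phi_inj (hq : 0 < q) : Function.Injective (phi : List (Fin q → α) → List α) := by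
  intro u
  induction u with
  | nil =>
    intro v h
    cases v with
    | nil => rfl
    | cons c v =>
      have := congrArg List.length h
      rw [phi_length, phi_length, List.length_nil, List.length_cons, mul_zero] at this
      exact absurd this (Nat.mul_pos hq (Nat.succ_pos v.length)).ne
  | cons b u ih =>
    intro v h
    cases v with
    | nil =>
      have := congrArg List.length h
      rw [phi_length, phi_length, List.length_nil, List.length_cons, mul_zero] at this
      exact absurd this (Nat.mul_pos hq (Nat.succ_pos u.length)).ne'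
    | cons c v =>
      rw [phi_cons, phi_cons] at h
      have h2 := List.append_inj h (by simp)
      rw [List.ofFn_injective h2.1, ih h2.2]

theorem phi_getElem? (w : List (Fin q → α)) (j : ℕ) (r : Fin q) :
    (phi w)[q * j + r]? = (w[j]?).map (fun b => b r) := by
  induction w generalizing j with
  | nil => simp [phi_nil]
  | cons b w ih =>
    rw [phi_cons]
    cases j with
    | zero =>
      rw [mul_zero, zero_add, List.getElem?_append_left (by simp), List.getElem?_cons_zero]
      simp
    | succ j =>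
      rw [List.getElem?_append_right (by rw [List.length_ofFn]; nlinarith), List.length_ofFn,
        List.getElem?_cons_succ, ← ih]
      congr 1
      rw [mul_add, mul_one]
      omega

theorem exists_phi (hq : 0 < q) (w : List α) :
    ∃ (w' : List (Fin q → α)) (s : List α), w = phi w' ++ s ∧ s.length < q := by
  induction hn : w.length using Nat.strong_induction_on generalizing w with
  | _ n ih =>
    by_cases h : w.length < q
    · exact ⟨[], w, rfl, h⟩
    · obtain ⟨w', s, h1, h2⟩ := ih (w.drop q).length (by rw [List.length_drop]; omega)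
        (w.drop q) rfl
      have hlen : (w.take q).length = q := by rw [List.length_take]; omega
      refine ⟨(fun i => (w.take q)[i.val]'(by rw [hlen]; exact i.isLt)) :: w', s, ?_, h2⟩
      rw [phi_cons, List.append_assoc, ← h1]
      have e : List.ofFn (fun i : Fin q => (w.take q)[i.val]'(by rw [hlen]; exact i.isLt)) =
          w.take q := by
        apply List.ext_getElem
        · rw [List.length_ofFn, hlen]
        · intro i h3 h4
          rw [List.getElem_ofFn]
      rw [e, List.take_append_drop]

theorem range_phi (hq : 0 < q) : Set.range (phi : List (Fin q → α) → List α) =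
    kst {w : List α | w.length = q} := by
  ext w
  constructor
  · rintro ⟨v, rfl⟩
    refine ⟨v.map List.ofFn, ?_, rfl⟩
    intro u hu
    obtain ⟨b, -, rfl⟩ := List.mem_map.1 hu
    exact List.length_ofFn
  · rintro ⟨L, hL, rfl⟩
    obtain ⟨w', s, h1, h2⟩ := exists_phi hq L.flatten
    have h3 : q ∣ L.flatten.length := by
      clear h1
      induction L with
      | nil => simp
      | cons u L ih =>
        rw [List.flatten_cons, List.length_append]
        have h4 : u.length = q := hL u List.mem_cons_self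
        rw [h4]
        exact dvd_add (dvd_refl q) (ih fun v hv => hL v (List.mem_cons_of_mem _ hv))
    have h5 : s = [] := by
      have h6 := congrArg List.length h1
      rw [List.length_append, phi_length] at h6
      have h7 : q ∣ s.length := by
        rw [h6] at h3
        exact (Nat.dvd_add_right (Dvd.intro _ rfl)).1 h3
      have h8 := Nat.eq_zero_of_dvd_of_lt h7 h2
      exact List.eq_nil_of_length_eq_zero h8
    rw [h5, List.append_nil] at h1
    exact ⟨w', h1.symm⟩

theorem image_cat (A B : Set (List (Fin q → α))) : phi '' cat A B = cat (phi '' A) (phi '' B) := by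
  ext w
  constructor
  · rintro ⟨_, ⟨u, hu, v, hv, rfl⟩, rfl⟩
    exact ⟨phi u, ⟨u, hu, rfl⟩, phi v, ⟨v, hv, rfl⟩, (phi_append u v).symm⟩
  · rintro ⟨_, ⟨u, hu, rfl⟩, _, ⟨v, hv, rfl⟩, rfl⟩
    exact ⟨u ++ v, ⟨u, hu, v, hv, rfl⟩, phi_append u v⟩

theorem image_kst (A : Set (List (Fin q → α))) : phi '' kst A = kst (phi '' A) := by
  ext w
  constructor
  · rintro ⟨_, ⟨L, hL, rfl⟩, rfl⟩
    refine ⟨L.map phi, ?_, (phi_flatten L).symm⟩
    intro u hu
    obtain ⟨v, hv, rfl⟩ := List.mem_map.1 hu
    exact ⟨v, hL v hv, rfl⟩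
  · rintro ⟨L, hL, rfl⟩
    induction L with
    | nil => exact ⟨[], ⟨[], by simp, rfl⟩, rfl⟩
    | cons u L ih =>
      obtain ⟨v, hv, rfl⟩ := hL u List.mem_cons_self
      obtain ⟨_, ⟨L', hL', rfl⟩, h2⟩ := ih fun v hv => hL v (List.mem_cons_of_mem _ hv)
      refine ⟨v ++ L'.flatten, ⟨v :: L', ?_, rfl⟩, ?_⟩
      · intro x hx
        rcases List.mem_cons.1 hx with rfl | hx
        · exact hv
        · exact hL' x hx
      · rw [phi_append, h2, List.flatten_cons]

theorem cls_phi [Finite α] (hq : 0 < q) :
    Cls (fun A : Set (List (Fin q → α)) => SH 1 (phi '' A)) where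
  empty := by
    show SH 1 _
    rw [Set.image_empty]; exact SH.empty
  word w := by
    show SH 1 _
    rw [Set.image_singleton]; exact (SH.word _).of_zero
  compl {A} h := by
    show SH 1 _
    have h1 : phi '' Aᶜ = (phi '' A)ᶜ ∩ Set.range (phi : List (Fin q → α) → List α) := by
      ext w
      constructor
      · rintro ⟨v, hv, rfl⟩
        refine ⟨?_, v, rfl⟩
        rintro ⟨v', hv', h2⟩
        rw [phi_inj hq h2] at hv'
        exact hv hv'
      · rintro ⟨h2, v, rfl⟩
        exact ⟨v, fun hv => h2 ⟨v, hv, rfl⟩, rfl⟩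
    rw [h1, range_phi hq]
    exact h.compl.inter (SH.finite0 (finite_of_length q fun w hw => le_of_eq hw)).kst
  union {A B} h1 h2 := by
    show SH 1 _
    rw [Set.image_union]
    exact SH.union h1 h2
  cat {A B} h1 h2 := by
    show SH 1 _
    rw [image_cat]
    exact SH.cat h1 h2
  kst {A} h := by
    show SH 1 _
    rw [image_kst]
    exact (SH.finite0 (h.image _)).kst

end phi

section period

variable {α : Type}

theorem pow_getElem? (z : List α) (N i : ℕ) (hi : i < N * z.length) :
    (List.replicate N z).flatten[i]? = z[i % z.length]? := by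
  induction N generalizing i with
  | zero => simp at hi
  | succ N ih =>
    rw [List.replicate_succ, List.flatten_cons]
    by_cases h : i < z.length
    · rw [List.getElem?_append_left h, Nat.mod_eq_of_lt h]
    · rw [List.getElem?_append_right (by omega), ih _ (by rw [add_mul, one_mul] at hi; omega)]
      rw [← Nat.mod_eq_sub_mod (by omega)]

theorem pow_length (z : List α) (N : ℕ) : (List.replicate N z).flatten.length = N * z.length := by
  induction N with
  | zero => simp
  | succ N ih => rw [List.replicate_succ, List.flatten_cons, List.length_append, ih]; ring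

/-- a long power of a short word contains equal consecutive blocks -/
theorem blocks_of_pow {q : ℕ} (hq : 0 < q) {z : List α} (hz : z ≠ []) (hd : z.length ∣ q)
    {N N₀ : ℕ} (hN : (N₀ + 1) * q ≤ N * z.length) {u : List (Fin q → α)}
    (h : (List.replicate N z).flatten <:+: phi u) :
    ∃ b : Fin q → α, List.replicate N₀ b <:+: u := by
  obtain ⟨x, y, hxy⟩ := h
  obtain ⟨a, ha1, ha2⟩ : ∃ a, x.length ≤ q * a ∧ q * a < x.length + q := by
    refine ⟨(x.length + q - 1) / q, ?_, ?_⟩
    · have h1 := Nat.lt_mul_div_succ (x.length + q - 1) hq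
      rw [Nat.mul_succ] at h1
      omega
    · have h1 := Nat.mul_div_le (x.length + q - 1) q
      omega
  have key : ∀ j (r : Fin q), j < N₀ → (u[a + j]?).map (fun b => b r) =
      z[(q * a + r - x.length) % z.length]? := by
    intro j r hj
    have hr := r.isLt
    have h0 : q * (a + j) = q * a + q * j := by ring
    have h1 : q * j + q ≤ q * N₀ := by
      calc q * j + q = q * (j + 1) := by ring
        _ ≤ q * N₀ := Nat.mul_le_mul_left q hj
    have h2 : (N₀ + 1) * q = q * N₀ + q := by ring
    have h3 : q * (a + j) + r - x.length < N * z.length := by omega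
    rw [← phi_getElem?, ← hxy, List.getElem?_append_left (by
      rw [List.length_append, pow_length]; omega),
      List.getElem?_append_right (by omega), pow_getElem? z N _ h3]
    congr 1
    obtain ⟨t, rfl⟩ := hd
    have h4 : z.length * t * (a + j) + r - x.length =
        (z.length * t * a + r - x.length) + z.length * (t * j) := by
      have : z.length * t * (a + j) = z.length * t * a + z.length * (t * j) := by ring
      omega
    rw [h4, Nat.add_mul_mod_self_left]
  rcases Nat.eq_zero_or_pos N₀ with rfl | hN0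
  · obtain ⟨c, -⟩ := List.exists_mem_of_ne_nil z hz
    exact ⟨fun _ => c, by simp⟩
  have hzpos : 0 < z.length := List.length_pos_iff.2 hz
  have h1 : ∃ b, u[a]? = some b := by
    have h2 := key 0 ⟨0, hq⟩ hN0
    rw [add_zero] at h2
    cases h3 : u[a]? with
    | some b => exact ⟨b, rfl⟩
    | none =>
      rw [h3, Option.map_none] at h2
      have h4 := List.getElem?_eq_none_iff.1 h2.symm
      have h5 := Nat.mod_lt (q * a + (⟨0, hq⟩ : Fin q) - x.length) hzpos
      omega
  obtain ⟨b, hb⟩ := h1
  have h2 : ∀ j, j < N₀ → u[a + j]? = some b := by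
    intro j hj
    have h3 : ∀ r : Fin q, (u[a + j]?).map (fun b => b r) = some (b r) := by
      intro r
      rw [key j r hj, ← key 0 r hN0, add_zero, hb, Option.map_some]
    cases h4 : u[a + j]? with
    | none =>
      have := h3 ⟨0, hq⟩
      rw [h4] at this
      simp at this
    | some c =>
      congr 1
      funext r
      have := h3 r
      rw [h4, Option.map_some] at this
      exact Option.some.inj this
  refine ⟨b, ?_⟩
  have h5 : (u.drop a).take N₀ = List.replicate N₀ b := by
    apply List.ext_getElem?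
    intro i
    by_cases hi : i < N₀
    · rw [List.getElem?_take, if_pos hi, List.getElem?_drop, h2 i hi]
      simp [hi]
    · rw [List.getElem?_take, if_neg hi]
      simp [hi]
  rw [← h5]
  exact ((List.take_prefix N₀ (u.drop a)).isInfix).trans (List.drop_suffix a u).isInfix

end period

section final

variable {α : Type}

theorem SH.slowP [Finite α] (P N m : ℕ) : SH 0 {w : List α | P329.Slow P N m w} := by
  have hB : SH 0 {u : List α | u.length = m ∧ ¬ ∃ z : List α, z ≠ [] ∧ z.length ≤ P ∧
      (List.replicate N z).flatten <:+: u} :=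
    SH.finite0 (finite_of_length m fun w hw => hw.1.le)
  have h1 := (SH.univ.cat (hB.cat SH.univ)).compl
  convert h1 using 1
  ext w
  constructor
  · rintro hw ⟨s, -, _, ⟨u, ⟨hu, hn⟩, t, -, rfl⟩, rfl⟩
    exact hn (hw u ⟨s, t, by simp⟩ hu)
  · intro hw u hu hm
    by_contra hn
    obtain ⟨s, t, rfl⟩ := hu
    exact hw ⟨s, trivial, u ++ t, ⟨u, ⟨hm, hn⟩, t, trivial, rfl⟩, by simp⟩

theorem slow_blocks {q : ℕ} (hq : 0 < q) {P N N₀ m : ℕ} (hd : ∀ p, 0 < p → p ≤ P → p ∣ q)
    (hN : (N₀ + 1) * q ≤ N) {w : List (Fin q → α)} {s : List α}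
    (h : P329.Slow P N m (phi w ++ s)) : Slow N₀ m w := by
  intro u hu hm
  have h1 : phi u <:+: phi w ++ s := by
    obtain ⟨x, y, rfl⟩ := hu
    exact ⟨phi x, phi y ++ s, by simp [phi_append]⟩
  obtain ⟨z, hz, hz2, hz3⟩ := h ((phi u).take m)
    (((List.take_prefix m (phi u)).isInfix).trans h1)
    (by rw [List.length_take, phi_length, hm]; exact min_eq_left (Nat.le_mul_of_pos_left m hq))
  have hzpos : 0 < z.length := List.length_pos_iff.2 hz
  exact blocks_of_pow hq hz (hd _ hzpos hz2)
    (hN.trans (Nat.le_mul_of_pos_right N hzpos))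
    (hz3.trans (List.take_prefix m (phi u)).isInfix)

theorem regular_phi {q : ℕ} (L : Language α) (hL : L.IsRegular) (s : List α) :
    Language.IsRegular ({w : List (Fin q → α) | phi w ++ s ∈ L} : Language (Fin q → α)) := by
  obtain ⟨σ, hσ, A, rfl⟩ := hL
  refine ⟨σ, hσ, ⟨fun t b => A.evalFrom t (List.ofFn b), A.start,
    {t | A.evalFrom t s ∈ A.accept}⟩, ?_⟩
  have h1 : ∀ (w : List (Fin q → α)) (t : σ),
      w.foldl (fun t b => A.evalFrom t (List.ofFn b)) t = A.evalFrom t (phi w) := by
    intro w
    induction w with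
    | nil => intro t; rfl
    | cons b w ih =>
      intro t
      rw [List.foldl_cons, ih, phi_cons, DFA.evalFrom_of_append]
  ext w
  show A.evalFrom (w.foldl (fun t b => A.evalFrom t (List.ofFn b)) A.start) s ∈ A.accept ↔
    A.evalFrom A.start (phi w ++ s) ∈ A.accept
  rw [h1, DFA.evalFrom_of_append]

/-- every regular language has star height at most one on the words all of whose factors of
length `m` contain high powers of short words -/
theorem slowP_regular [Finite α] (L : Language α) (hL : L.IsRegular) (P : ℕ) :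
    ∃ N₀ : ℕ, ∀ N : ℕ, N₀ ≤ N → ∀ m : ℕ,
      SH 1 {w : List α | w ∈ L ∧ P329.Slow P N m w} := by
  classical
  have hq : 0 < P.factorial := Nat.factorial_pos P
  choose F hF using fun s : List α => slow_regular_cls (cls_phi (α := α) hq)
    ({w : List (Fin P.factorial → α) | phi w ++ s ∈ L} : Language (Fin P.factorial → α))
    (regular_phi L hL s)
  have hfin : {s : List α | s.length < P.factorial}.Finite :=
    finite_of_length P.factorial fun s hs => le_of_lt hs
  refine ⟨(hfin.toFinset.sup F + 1) * P.factorial, fun N hN m => ?_⟩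
  have h1 : SH 1 (⋃ s ∈ hfin.toFinset, cat (phi '' {w : List (Fin P.factorial → α) |
      w ∈ ({w : List (Fin P.factorial → α) | phi w ++ s ∈ L} : Language (Fin P.factorial → α)) ∧
        Slow (hfin.toFinset.sup F) m w}) {s}) :=
    SH.biUnion _ fun s hs => (hF s _ (Finset.le_sup hs) m).cat (SH.word s).of_zero
  have h2 := ((SH.slowP (α := α) P N m).of_zero (k := 1)).inter h1
  convert h2 using 1
  ext w
  constructor
  · rintro ⟨hw, hs⟩
    refine ⟨hs, ?_⟩
    obtain ⟨w', s, rfl, h3⟩ := exists_phi hq w
    simp only [Set.mem_iUnion]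
    refine ⟨s, by simpa using h3, phi w', ⟨w', ⟨hw, ?_⟩, rfl⟩, s, rfl, rfl⟩
    exact slow_blocks hq (fun p hp hpP => Nat.dvd_factorial hp hpP) hN hs
  · rintro ⟨hs, hw⟩
    simp only [Set.mem_iUnion] at hw
    obtain ⟨s, -, _, ⟨w', ⟨h3, -⟩, rfl⟩, s', hs', rfl⟩ := hw
    rw [Set.mem_singleton_iff] at hs'
    subst hs'
    exact ⟨h3, hs⟩

end final

end Vale.Agent.P329.Slow
end
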