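import Mathlib.Data.ZMod.Basic
import Mathlib.Algebra.BigOperators.Group.Finset.Basic
import Vale.Agent.P329.Bdl.B1

namespace Vale.Agent.P329

/-- A function on words all of whose fibres have star height at most one. -/
def Kn {α : Type} {B : Type*} (F : List α → B) : Prop := ∀ b : B, SH 1 {w | F w = b}

/-- An integer valued function on words that is `Kn` modulo every positive integer. -/
def KnZ {α : Type} (N : List α → ℤ) : Prop := ∀ n : ℕ, 0 < n → Kn fun w => (N w : ZMod n)

section

variable {α : Type}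

theorem Kn.const {B : Type*} (b : B) : Kn fun _ : List α => b := by
  intro b'
  by_cases h : b = b'
  · exact Eq.mp (congrArg (SH 1) (by ext w; simp [h])) (SH.univ (α := α) (k := 1))
  · exact Eq.mp (congrArg (SH 1) (by ext w; simp [h])) (SH.empty (α := α) (k := 1))

theorem Kn.comp {B C : Type*} [Finite B] {F : List α → B} (hF : Kn F) (φ : B → C) :
    Kn fun w => φ (F w) := by
  intro c
  have h : SH 1 (⋃ b : B, ⋃ _ : φ b = c, {w | F w = b}) :=
    SH.iUnion fun b => SH.iUnion_prop fun _ => hF b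
  refine Eq.mp (congrArg (SH 1) ?_) h
  ext w
  simp

theorem Kn.pair {B C : Type*} {F : List α → B} {G : List α → C} (hF : Kn F) (hG : Kn G) :
    Kn fun w => (F w, G w) := by
  rintro ⟨b, c⟩
  refine Eq.mp (congrArg (SH 1) ?_) ((hF b).inter (hG c))
  ext w
  simp

theorem Kn.comp₂ {B C D : Type*} [Finite B] [Finite C] {F : List α → B} {G : List α → C}
    (hF : Kn F) (hG : Kn G) (φ : B → C → D) : Kn fun w => φ (F w) (G w) :=
  (hF.pair hG).comp fun x => φ x.1 x.2

theorem Kn.pi {ι : Type*} [Finite ι] {B : ι → Type*} {F : ∀ i, List α → B i}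
    (hF : ∀ i, Kn (F i)) : Kn fun w => fun i => F i w := by
  intro b
  refine Eq.mp (congrArg (SH 1) ?_) (SH.iInter fun i => hF i (b i))
  ext w
  simp [funext_iff]

theorem Kn.of_event {σ : Type} {δ : σ → α → Option σ} [Finite α] [Finite σ] (h : NoCyc δ)
    (b s : σ) : Kn (fin δ b s) := by
  intro t
  refine Eq.mp (congrArg (SH 1) ?_) (event h b s t 1 one_pos 0)
  ext w
  simp

theorem KnZ.congr {N M : List α → ℤ} (hN : KnZ N) (h : ∀ w, M w = N w) : KnZ M := by
  have : M = N := funext h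
  rw [this]; exact hN

theorem KnZ.of_event {σ : Type} {δ : σ → α → Option σ} [Finite α] [Finite σ] (h : NoCyc δ)
    (b s : σ) : KnZ fun w => (cnt δ b s w : ℤ) := by
  intro n hn c
  have hne : NeZero n := ⟨hn.ne'⟩
  obtain ⟨r, rfl⟩ := ZMod.intCast_surjective c
  refine Eq.mp (congrArg (SH 1) ?_) (SH.iUnion fun t => event h b s t n hn r)
  ext w
  simp only [Set.mem_iUnion]
  constructor
  · rintro ⟨t, h1, h2⟩
    exact ((ZMod.intCast_eq_intCast_iff_dvd_sub _ _ n).mpr h1).symm
  · intro h1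
    refine ⟨fin δ b s w, ?_, rfl⟩
    exact (ZMod.intCast_eq_intCast_iff_dvd_sub _ _ n).mp (Eq.symm h1)

theorem KnZ.const (c : ℤ) : KnZ fun _ : List α => c := fun _ _ => Kn.const _

theorem KnZ.of_kn {B : Type*} [Finite B] {F : List α → B} (hF : Kn F) (φ : B → ℤ) :
    KnZ fun w => φ (F w) := fun _ _ => hF.comp fun b => ((φ b : ℤ) : ZMod _)

theorem KnZ.add {N M : List α → ℤ} (hN : KnZ N) (hM : KnZ M) : KnZ fun w => N w + M w := by
  intro n hn
  have hne : NeZero n := ⟨hn.ne'⟩
  have := (hN n hn).comp₂ (hM n hn) fun x y => x + y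
  simpa only [Int.cast_add] using this

theorem KnZ.mul_left {N : List α → ℤ} (hN : KnZ N) (c : ℤ) : KnZ fun w => c * N w := by
  intro n hn
  have hne : NeZero n := ⟨hn.ne'⟩
  have := (hN n hn).comp fun x => (c : ZMod n) * x
  simpa only [Int.cast_mul] using this

theorem KnZ.sub {N M : List α → ℤ} (hN : KnZ N) (hM : KnZ M) : KnZ fun w => N w - M w :=
  (hN.add (hM.mul_left (-1))).congr fun w => by ring

theorem KnZ.sum {ι : Type*} (s : Finset ι) {N : ι → List α → ℤ} (h : ∀ i ∈ s, KnZ (N i)) :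
    KnZ fun w => ∑ i ∈ s, N i w := by
  classical
  induction s using Finset.induction_on with
  | empty => simpa using KnZ.const 0
  | insert a s ha ih =>
    have h1 := (h a (Finset.mem_insert_self _ _)).add
      (ih fun i hi => h i (Finset.mem_insert_of_mem hi))
    exact h1.congr fun w => Finset.sum_insert ha

theorem KnZ.div {N : List α → ℤ} {c : ℕ} (hc : 0 < c) (h : KnZ fun w => (c : ℤ) * N w) :
    KnZ N := by
  intro n hn b
  have hne : NeZero n := ⟨hn.ne'⟩
  obtain ⟨r, rfl⟩ := ZMod.intCast_surjective b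
  refine Eq.mp (congrArg (SH 1) ?_) (h (c * n) (Nat.mul_pos hc hn) ((c * r : ℤ) : ZMod (c * n)))
  ext w
  change ((c * N w : ℤ) : ZMod (c * n)) = ((c * r : ℤ) : ZMod (c * n)) ↔
    ((N w : ℤ) : ZMod n) = (r : ZMod n)
  rw [ZMod.intCast_eq_intCast_iff_dvd_sub, ZMod.intCast_eq_intCast_iff_dvd_sub, ← mul_sub,
    Nat.cast_mul]
  exact mul_dvd_mul_iff_left (by omega)

end

end Vale.Agent.P329
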