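import Mathlib.Algebra.Field.ZMod
import Mathlib.Algebra.BigOperators.Group.Finset.Piecewise
import Mathlib.Tactic.Linarith
import Mathlib.LinearAlgebra.Dual.Lemmas
import Mathlib.LinearAlgebra.FiniteDimensional.Basic
import Mathlib.GroupTheory.QuotientGroup.Basic
import Mathlib.GroupTheory.OrderOfElement
import Mathlib.Algebra.Module.ZMod
import Mathlib.GroupTheory.Nilpotent
import Mathlib.Tactic.Group
import Mathlib.Tactic.LinearCombination
import Vale.Agent.P329.Bdl.K_Bdl_K_Known
import Vale.Agent.P329.Bdl.B1

set_option linter.all false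

section

section

namespace Vale.Agent.P329

/-- powers of a word -/
def pw {α : Type} (n : ℕ) (z : List α) : List α := (List.replicate n z).flatten

section pw

variable {α : Type}

theorem pw_zero (z : List α) : pw 0 z = [] := rfl
theorem pw_succ (n : ℕ) (z : List α) : pw (n + 1) z = z ++ pw n z := by
  rw [pw, pw, List.replicate_succ, List.flatten_cons]
theorem pw_succ' (n : ℕ) (z : List α) : pw (n + 1) z = pw n z ++ z := by
  induction n with
  | zero => rw [pw_succ, pw_zero]; simp
  | succ n ih => rw [pw_succ, ih, ← List.append_assoc, ← pw_succ, ih]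
theorem pw_conj (n : ℕ) (u v : List α) : pw n (u ++ v) ++ u = u ++ pw n (v ++ u) := by
  induction n with
  | zero => rw [pw_zero, pw_zero]; simp
  | succ n ih => rw [pw_succ, List.append_assoc, ih, pw_succ]; simp
theorem pw_ne_nil {n : ℕ} (hn : 0 < n) {z : List α} (hz : z ≠ []) : pw n z ≠ [] := by
  obtain ⟨m, rfl⟩ : ∃ m, n = m + 1 := ⟨n - 1, by omega⟩
  rw [pw_succ]; simp [hz]

variable {σ : Type} {δ : σ → α → Option σ}

theorem run_rotate {s : σ} {n : ℕ} (hn : 0 < n) {u v : List α}
    (h : run δ s (pw n (u ++ v)) = some s) :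
    ∃ s', run δ s u = some s' ∧ run δ s' (pw n (v ++ u)) = some s' := by
  obtain ⟨m, rfl⟩ : ∃ m, n = m + 1 := ⟨n - 1, by omega⟩
  have h1 := h
  rw [pw_succ, List.append_assoc] at h1
  obtain ⟨s', h2, h3⟩ := run_append_eq_some h1
  refine ⟨s', h2, ?_⟩
  have h4 : run δ s (pw (m + 1) (u ++ v) ++ u) = some s' := by
    rw [run_append _ h, h2]
  rw [pw_conj, run_append _ h2] at h4
  exact h4

theorem run_move {s : σ} {n : ℕ} (hn : 0 < n) {z : List α}
    (h : run δ s (pw n z) = some s) (k : ℕ) :
    ∃ s', run δ s (pw k z) = some s' ∧ run δ s' (pw n z) = some s' := by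
  induction k with
  | zero => exact ⟨s, rfl, h⟩
  | succ k ih =>
    obtain ⟨s', h1, h2⟩ := ih
    have h3 : run δ s' (pw n (z ++ [])) = some s' := by rw [List.append_nil]; exact h2
    obtain ⟨s'', h4, h5⟩ := run_rotate hn h3
    refine ⟨s'', ?_, h5⟩
    rw [pw_succ', run_append _ h1, h4]

theorem run_fix {s a : σ} {z : List α} (h1 : run δ s z = some a) (h2 : run δ a z = some a)
    {n : ℕ} (hn : 0 < n) : run δ s (pw n z) = some a := by
  obtain ⟨m, rfl⟩ : ∃ m, n = m + 1 := ⟨n - 1, by omega⟩
  rw [pw_succ, run_append _ h1]
  clear h1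
  induction m with
  | zero => rfl
  | succ m ih => rw [pw_succ, run_append _ h2]; exact ih (by omega)

theorem noCyc_of (h : ∀ (z : List α) (s : σ) (n : ℕ), z ≠ [] → 0 < n →
    run δ s (pw n z) = some s → run δ s z = some s) : NoCyc δ := by
  intro z s n hn hs
  by_cases hz : z = []
  · subst hz; rfl
  · exact h z s n hz hn hs

theorem noCyc_subsingleton [Subsingleton σ] : NoCyc δ := by
  apply noCyc_of
  intro z s n _ hn h
  obtain ⟨m, rfl⟩ : ∃ m, n = m + 1 := ⟨n - 1, by omega⟩
  rw [pw_succ] at h
  obtain ⟨s', h1, -⟩ := run_append_eq_some h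
  rw [h1, Subsingleton.elim s' s]

end pw

section trans

variable {α : Type} {p : ℕ} (φ : α → ZMod p) (F L B : α → Bool)

/-- The counting transducer. A state consists of the current value, of a flag telling whether the
first letter of the current piece is in `F`, and of a flag telling whether all
letters of the current piece are in `B`. -/
def tr (s : ZMod p × Bool × Bool) (x : α) : Option (ZMod p × Bool × Bool) :=
  if s.1 + φ x = 0 then
    (if (if s.1 = 0 then F x else s.2.1) && L x && !(if s.1 = 0 then B x else s.2.2 && B x)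
      then some (0, false, false) else none)
  else some (s.1 + φ x, (if s.1 = 0 then F x else s.2.1), (if s.1 = 0 then B x else s.2.2 && B x))

variable {φ F L B}

theorem tr_ne {s : ZMod p × Bool × Bool} {x : α} (h : s.1 + φ x ≠ 0) :
    tr φ F L B s x = some (s.1 + φ x, (if s.1 = 0 then F x else s.2.1),
      (if s.1 = 0 then B x else s.2.2 && B x)) := by
  rw [tr, if_neg h]

theorem tr_eq {s : ZMod p × Bool × Bool} {x : α} (h : s.1 + φ x = 0) :
    tr φ F L B s x = 
    (if (if s.1 = 0 then F x else s.2.1) && L x && !(if s.1 = 0 then B x else s.2.2 && B x)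
      then some (0, false, false) else none) := by
  rw [tr, if_pos h]

theorem tr_some_eq {s t : ZMod p × Bool × Bool} {x : α} (h : tr φ F L B s x = some t)
    (h0 : s.1 + φ x = 0) : t = (0, false, false) ∧ (if s.1 = 0 then F x else s.2.1) = true ∧
      L x = true ∧ (if s.1 = 0 then B x else s.2.2 && B x) = false := by
  rw [tr_eq h0] at h
  by_cases hc : (if s.1 = 0 then F x else s.2.1) && L x &&
      !(if s.1 = 0 then B x else s.2.2 && B x)
  · rw [if_pos hc] at h
    cases h
    refine ⟨rfl, ?_⟩
    rw [Bool.and_eq_true, Bool.and_eq_true, Bool.not_eq_true'] at hc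
    exact ⟨hc.1.1, hc.1.2, hc.2⟩
  · rw [if_neg hc] at h
    cases h

theorem tr_val {s t : ZMod p × Bool × Bool} {x : α} (h : tr φ F L B s x = some t) :
    t.1 = s.1 + φ x := by
  by_cases h0 : s.1 + φ x = 0
  · rw [(tr_some_eq h h0).1, h0]
  · rw [tr_ne h0] at h
    cases h; rfl

theorem tr_zero {s t : ZMod p × Bool × Bool} {x : α} (h : tr φ F L B s x = some t)
    (h0 : t.1 = 0) : t = (0, false, false) :=
  (tr_some_eq h ((tr_val h).symm.trans h0)).1

theorem run_val {s t : ZMod p × Bool × Bool} {w : List α} (h : run (tr φ F L B) s w = some t) :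
    t.1 = s.1 + (w.map φ).sum := by
  induction w generalizing s with
  | nil => cases h; simp
  | cons x w ih =>
    obtain ⟨s', h1, h2⟩ := run_cons_eq_some h
    rw [ih h2, tr_val h1, List.map_cons, List.sum_cons, add_assoc]

theorem run_zero {s t : ZMod p × Bool × Bool} {w : List α} (hw : w ≠ [])
    (h : run (tr φ F L B) s w = some t) (h0 : t.1 = 0) : t = (0, false, false) := by
  obtain ⟨u, x, rfl⟩ := List.eq_nil_or_concat' w |>.resolve_left hw
  obtain ⟨s', h1, h2⟩ := run_append_eq_some h
  obtain ⟨s'', h3, h4⟩ := run_cons_eq_some h2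
  cases h4
  exact tr_zero h3 h0

theorem run_good {g : ZMod p} {gd ab : Bool} {t : ZMod p × Bool × Bool} {w : List α} (hg : g ≠ 0)
    (h : run (tr φ F L B) (g, gd, ab) w = some t) (h0 : t.1 = 0) : gd = true := by
  induction w generalizing g ab with
  | nil => cases h; exact absurd h0 hg
  | cons x w ih =>
    obtain ⟨s', h1, h2⟩ := run_cons_eq_some h
    by_cases hx : g + φ x = 0
    · have := (tr_some_eq h1 hx).2.1
      rwa [if_neg hg] at this
    · rw [tr_ne hx] at h1
      cases h1
      simp only [hg, if_false] at h2
      exact ih hx h2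

theorem run_all {g : ZMod p} {gd : Bool} {t : ZMod p × Bool × Bool} {w : List α} (hg : g ≠ 0)
    (h : run (tr φ F L B) (g, gd, true) w = some t) (hw : ∀ x ∈ w, B x = true) : t.1 ≠ 0 := by
  induction w generalizing g gd with
  | nil => cases h; exact hg
  | cons x w ih =>
    obtain ⟨s', h1, h2⟩ := run_cons_eq_some h
    by_cases hx : g + φ x = 0
    · have := (tr_some_eq h1 hx).2.2.2
      rw [if_neg hg, hw x List.mem_cons_self] at this
      cases this
    · rw [tr_ne hx] at h1
      cases h1
      simp only [hg, if_false, hw x List.mem_cons_self, Bool.and_true] at h2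
      exact ih hx h2 fun y hy => hw y (List.mem_cons_of_mem _ hy)

theorem run_flags {g : ZMod p} {gd ab : Bool} {w : List α}
    (h : ∀ u v, w = u ++ v → g + (u.map φ).sum ≠ 0) :
    run (tr φ F L B) (g, gd, ab) w = some (g + (w.map φ).sum, gd, ab && w.all B) := by
  induction w generalizing g ab with
  | nil => simp [run_nil]
  | cons x w ih =>
    have h0 : g ≠ 0 := by simpa using h [] (x :: w) rfl
    have h1 : g + φ x ≠ 0 := by simpa only [ne_eq, List.map_cons, List.map_nil, List.sum_cons, List.sum_nil, add_zero] using h [x] w rfl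
    rw [run_cons_some _ (tr_ne h1)]
    simp only [h0, if_false]
    rw [ih]
    · rw [List.map_cons, List.sum_cons, add_assoc, List.all_cons, Bool.and_assoc]
    · intro u v huv
      have := h (x :: u) v (by rw [huv]; rfl)
      rwa [List.map_cons, List.sum_cons, ← add_assoc] at this

theorem run_base_all {w : List α} {t : ZMod p × Bool × Bool} (hw : w ≠ [])
    (h : run (tr φ F L B) (0, false, false) w = some t) (hB : ∀ x ∈ w, B x = true) : t.1 ≠ 0 := by
  cases w with
  | nil => exact absurd rfl hw
  | cons x w =>
    obtain ⟨s', h1, h2⟩ := run_cons_eq_some h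
    by_cases hx : (0 : ZMod p) + φ x = 0
    · have := (tr_some_eq h1 hx).2.2.2
      rw [if_pos rfl, hB x List.mem_cons_self] at this
      cases this
    · rw [tr_ne hx] at h1
      cases h1
      simp only [if_true, hB x List.mem_cons_self] at h2
      exact run_all hx h2 fun y hy => hB y (List.mem_cons_of_mem _ hy)

theorem run_base_first {w : List α} {x : α} {t : ZMod p × Bool × Bool}
    (h : run (tr φ F L B) (0, false, false) (x :: w) = some t) (h0 : t.1 = 0) : F x = true := by
  obtain ⟨s', h1, h2⟩ := run_cons_eq_some h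
  by_cases hx : (0 : ZMod p) + φ x = 0
  · have := (tr_some_eq h1 hx).2.1
    rwa [if_pos rfl] at this
  · rw [tr_ne hx] at h1
    cases h1
    have := run_good hx h2 h0
    simpa using this

theorem run_last {w : List α} {x : α} {s t : ZMod p × Bool × Bool}
    (h : run (tr φ F L B) s (w ++ [x]) = some t) (h0 : t.1 = 0) : L x = true := by
  obtain ⟨s', h1, h2⟩ := run_append_eq_some h
  obtain ⟨s'', h3, h4⟩ := run_cons_eq_some h2
  cases h4
  exact (tr_some_eq h3 ((tr_val h3).symm.trans h0)).2.2.1

theorem tr_noCyc [Fact p.Prime] (h : (∀ x, F x = true → L x = true → B x = true) ∨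
    (∀ x, F x = true → L x = true → φ x = 0)) : NoCyc (tr φ F L B) := by
  apply noCyc_of
  intro z s n hz hn hs
  by_cases h0 : (z.map φ).sum = 0
  · -- weight zero
    suffices hsuff : ∃ a, run (tr φ F L B) s z = some a ∧ run (tr φ F L B) a z = some a by
      obtain ⟨a, h1, h2⟩ := hsuff
      have h3 := run_fix h1 h2 hn
      rw [hs] at h3
      cases h3
      exact h1
    by_cases hA : ∃ u v, z = u ++ v ∧ s.1 + (u.map φ).sum = 0
    · obtain ⟨u, v, rfl, huv⟩ := hA
      obtain ⟨s1, h1, h2⟩ := run_move hn hs 1
      rw [pw_succ, pw_zero, List.append_nil] at h1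
      have hs1 : s1.1 = s.1 := by rw [run_val h1, h0, add_zero]
      obtain ⟨s2, h3, h4⟩ := run_move hn h2 1
      rw [pw_succ, pw_zero, List.append_nil] at h3
      obtain ⟨t1, h5, h6⟩ := run_append_eq_some h1
      obtain ⟨t2, h7, h8⟩ := run_append_eq_some h3
      have e1 : t1.1 = 0 := by rw [run_val h5, huv]
      have e2 : t2.1 = 0 := by rw [run_val h7, hs1, huv]
      by_cases hu : u = []
      · subst hu
        cases h5
        cases h7
        rw [List.nil_append] at *
        have e3 : s1 = (0, false, false) := run_zero hz h1 (hs1.trans e1)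
        have e4 : s2 = (0, false, false) := run_zero hz h3 (by rw [run_val h3, h0, hs1, e1]; simp)
        rw [e4] at h3
        exact ⟨s1, h1, by rw [h3, e3]⟩
      · have e3 := run_zero hu h5 e1
        have e4 := run_zero hu h7 e2
        rw [e3] at h6
        rw [e4] at h8
        rw [h6] at h8
        cases h8
        exact ⟨s1, h1, h3⟩
    · push Not at hA
      refine ⟨_, run_flags hA, ?_⟩
      rw [run_flags]
      · simp [h0]
      · intro u v huv
        rw [h0, add_zero]
        exact hA u v huv
  · exfalso
    -- every conjugate runs from the base to the base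
    have hbase : ∀ z' : List α, ∀ s', (z'.map φ).sum ≠ 0 →
        run (tr φ F L B) s' (pw n z') = some s' →
        run (tr φ F L B) (0, false, false) (pw n z') = some (0, false, false) := by
      intro z' s' hz' hs'
      obtain ⟨s'', h1, h2⟩ := run_move hn hs' ((-s'.1) / (z'.map φ).sum : ZMod p).val
      have h3 : s''.1 = 0 := by
        rw [run_val h1]
        have : ∀ k : ℕ, ((pw k z').map φ).sum = k * (z'.map φ).sum := by
          intro k
          induction k with
          | zero => simp [pw_zero]
          | succ k ih => rw [pw_succ, List.map_append, List.sum_append, ih]; push_cast; ring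
        rw [this, ZMod.natCast_val, ZMod.cast_id', id, div_mul_cancel₀ _ hz']
        ring
      have h4 : s'' = (0, false, false) := run_zero (pw_ne_nil hn (by
        rintro rfl; exact hz' rfl)) h2 h3
      rw [h4] at h2
      exact h2
    have hF : ∀ x ∈ z, F x = true := by
      intro x hx
      obtain ⟨u, v, rfl⟩ := List.append_of_mem hx
      obtain ⟨s', h1, h2⟩ := run_rotate hn hs
      have h3 := hbase _ s' (by
        rw [List.map_append, List.sum_append, add_comm, ← List.sum_append, ← List.map_append]
        exact h0) h2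
      obtain ⟨m, rfl⟩ : ∃ m, n = m + 1 := ⟨n - 1, by omega⟩
      rw [pw_succ, List.cons_append, List.cons_append] at h3
      exact run_base_first h3 rfl
    have hL : ∀ x ∈ z, L x = true := by
      intro x hx
      obtain ⟨u, v, rfl⟩ := List.append_of_mem hx
      rw [← List.singleton_append, ← List.append_assoc] at hs h0
      obtain ⟨s', h1, h2⟩ := run_rotate hn hs
      have h3 := hbase _ s' (by
        rw [List.map_append, List.sum_append, add_comm, ← List.sum_append, ← List.map_append]
        exact h0) h2
      obtain ⟨m, rfl⟩ : ∃ m, n = m + 1 := ⟨n - 1, by omega⟩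
      rw [pw_succ', ← List.append_assoc, ← List.append_assoc] at h3
      exact run_last h3 rfl
    rcases h with h | h
    · have h1 := hbase z s h0 hs
      refine run_base_all (pw_ne_nil hn hz) h1 ?_ rfl
      intro x hx
      rw [pw, List.mem_flatten] at hx
      obtain ⟨l, hl, hx⟩ := hx
      rw [List.eq_of_mem_replicate hl] at hx
      exact h x (hF x hx) (hL x hx)
    · apply h0
      apply List.sum_eq_zero
      intro y hy
      obtain ⟨x, hx, rfl⟩ := List.mem_map.mp hy
      exact h x (hF x hx) (hL x hx)

end trans

end Vale.Agent.P329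
end
end

section

section

namespace Vale.Agent.P329

open Classical in
/-- weighted number of occurrences of a letter along the run of an automaton -/
noncomputable def W {α Q : Type} (act : Q → α → Q) (x : α) (Φ : Q → ℤ) (q : Q) : List α → ℤ
  | [] => 0
  | y :: w => (if y = x then Φ q else 0) + W act x Φ (act q y) w

section W

variable {α Q : Type} {act : Q → α → Q} {x : α}

theorem W_nil (Φ : Q → ℤ) (q : Q) : W act x Φ q [] = 0 := rfl
open Classical in
theorem W_cons (Φ : Q → ℤ) (q : Q) (y : α) (w : List α) :
    W act x Φ q (y :: w) = (if y = x then Φ q else 0) + W act x Φ (act q y) w := rfl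

theorem W_add (Φ Ψ : Q → ℤ) (q : Q) (w : List α) :
    W act x (fun r => Φ r + Ψ r) q w = W act x Φ q w + W act x Ψ q w := by
  induction w generalizing q with
  | nil => simp [W_nil]
  | cons y w ih => rw [W_cons, W_cons, W_cons, ih]; split_ifs <;> ring

theorem W_mul (c : ℤ) (Φ : Q → ℤ) (q : Q) (w : List α) :
    W act x (fun r => c * Φ r) q w = c * W act x Φ q w := by
  induction w generalizing q with
  | nil => simp [W_nil]
  | cons y w ih => rw [W_cons, W_cons, ih]; split_ifs <;> ring

theorem W_sum {ι : Type*} (s : Finset ι) (Φ : ι → Q → ℤ) (q : Q) (w : List α) :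
    W act x (fun r => ∑ i ∈ s, Φ i r) q w = ∑ i ∈ s, W act x (Φ i) q w := by
  classical
  induction s using Finset.induction_on with
  | empty =>
    simp only [Finset.sum_empty]
    have := W_mul (act := act) (x := x) 0 (fun _ => 0) q w
    simpa using this
  | insert a s ha ih =>
    rw [Finset.sum_insert ha, ← ih, ← W_add]
    congr 1
    funext r
    exact Finset.sum_insert ha

end W

section Zp

variable {α : Type} {p : ℕ}

theorem len_known [Finite α] {Q : Type} (act : Q → α → Q) (x : α) (q : Q) :
    KnZ (W act x (fun _ => 1) q) := by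
  classical
  have h := KnZ.of_event (α := α) (δ := fun (_ : Unit) (y : α) => if y = x then none else some ())
    noCyc_subsingleton () ()
  apply h.congr
  intro w
  induction w generalizing q with
  | nil => rfl
  | cons y w ih =>
    rw [W_cons, ih]
    by_cases hy : y = x
    · rw [cnt_cons_none _ (if_pos hy), if_pos hy]; push_cast; ring
    · rw [cnt_cons_some _ (if_neg hy), if_neg hy]; ring

/-- addition of letter values -/
def adda (φ : α → ZMod p) (g : ZMod p) (x : α) : ZMod p := g + φ x

open Classical in
/-- The indicator function of a point. -/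
noncomputable def ind {Q : Type} (r q : Q) : ℤ := if q = r then 1 else 0

theorem ind_self {Q : Type} (r : Q) : ind r r = 1 := if_pos rfl
theorem ind_ne {Q : Type} {r q : Q} (h : q ≠ r) : ind r q = 0 := if_neg h

variable (φ : α → ZMod p) (b : α)

open Classical in
/-- Indicator of the states inside a piece whose first letter was good. -/
noncomputable def st {p : ℕ} (s : ZMod p × Bool × Bool) : ℤ :=
  if s.1 ≠ 0 ∧ s.2.1 = true then 1 else 0

theorem st_zero (gd ab : Bool) : st ((0 : ZMod p), gd, ab) = 0 := if_neg fun h => h.1 rfl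
theorem st_false (g : ZMod p) (ab : Bool) : st (g, false, ab) = 0 :=
  if_neg fun h => Bool.false_ne_true h.2
theorem st_true {g : ZMod p} (hg : g ≠ 0) (ab : Bool) : st (g, true, ab) = 1 := if_pos ⟨hg, rfl⟩
theorem st_congr (g : ZMod p) (gd ab ab' : Bool) : st (g, gd, ab) = st (g, gd, ab') := rfl
theorem st_congr' {g g' : ZMod p} (hg : g ≠ 0) (hg' : g' ≠ 0) (gd ab ab' : Bool) :
    st (g, gd, ab) = st (g', gd, ab') := by
  cases gd
  · rw [st_false, st_false]
  · rw [st_true hg, st_true hg']

open Classical in
theorem diff_formula (hb : φ b ≠ 0) (w : List α) (g : ZMod p) (gd gd2 ab : Bool)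
    (hg : g ≠ 0 → gd2 = true ∧ (ab = true → gd = true)) :
    (cnt (tr φ (fun _ => true) (fun x => decide (x = b)) (fun x => decide (x = b)))
      (0, false, false) (g, gd2, ab) w : ℤ)
    - cnt (tr φ (fun x => decide (x = b)) (fun _ => true) (fun x => decide (x = b)))
      (0, false, false) (g, gd, ab) w
    + st (fin (tr φ (fun x => decide (x = b)) (fun _ => true) (fun x => decide (x = b)))
      (0, false, false) (g, gd, ab) w)
    = W (adda φ) b (ind 0) g w - W (adda φ) b (ind 0) (g + φ b) w + st (g, gd, ab) := by
  induction w generalizing g gd gd2 ab with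
  | nil => simp only [cnt_nil, fin_nil, W_nil]; push_cast; ring
  | cons y w ih =>
    rw [W_cons, W_cons]
    have ih0 := ih 0 false false false (fun h => absurd rfl h)
    rw [st_zero] at ih0
    by_cases hy : y = b
    · subst hy
      by_cases h0 : g = 0
      · subst h0
        have h1 : (0 : ZMod p) + φ y ≠ 0 := by simpa using hb
        rw [cnt_cons_some w (tr_ne h1), cnt_cons_some w (tr_ne h1), fin_cons_some w (tr_ne h1)]
        have ih1 := ih (0 + φ y) true true true (fun _ => ⟨rfl, fun _ => rfl⟩)
        rw [st_true h1] at ih1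
        simp only [if_true, decide_true, adda] at ih1 ⊢
        rw [ind_self, ind_ne h1, st_zero]
        linarith only [ih1]
      · by_cases h1 : g + φ y = 0
        · have e1 : tr φ (fun _ => true) (fun x => decide (x = y)) (fun x => decide (x = y))
              (g, gd2, ab) y = if !ab then some (0, false, false) else none := by
            rw [tr_eq h1]; simp [h0, (hg h0).1]
          have e2 : tr φ (fun x => decide (x = y)) (fun _ => true) (fun x => decide (x = y))
              (g, gd, ab) y = if gd && !ab then some (0, false, false) else none := by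
            rw [tr_eq h1]; simp [h0]
          have hg2 := (hg h0).2
          have i1 : ind (0 : ZMod p) g = 0 := ind_ne h0
          have i2 : ind (0 : ZMod p) (g + φ y) = 1 := by rw [h1]; exact ind_self 0
          have a1 : W (adda φ) y (ind 0) (adda φ g y) w = W (adda φ) y (ind 0) 0 w := by
            rw [adda, h1]
          have a2 : W (adda φ) y (ind 0) (adda φ (g + φ y) y) w =
              W (adda φ) y (ind 0) (0 + φ y) w := by rw [adda, h1]
          rw [i1, i2, a1, a2, if_pos rfl, if_pos rfl]
          cases ab <;> cases gd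
          · have e1' := e1.trans (if_pos (by rfl))
            have e2' := e2.trans (if_neg (by decide))
            rw [cnt_cons_some w e1', cnt_cons_none w e2', fin_cons_none w e2', st_false]
            push_cast
            linarith only [ih0]
          · have e1' := e1.trans (if_pos (by rfl))
            have e2' := e2.trans (if_pos (by rfl))
            rw [cnt_cons_some w e1', cnt_cons_some w e2', fin_cons_some w e2', st_true h0]
            linarith only [ih0]
          · exact absurd (hg2 rfl) (by decide)
          · have e1' := e1.trans (if_neg (by decide))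
            have e2' := e2.trans (if_neg (by decide))
            rw [cnt_cons_none w e1', cnt_cons_none w e2', fin_cons_none w e2', st_true h0]
            push_cast
            linarith only [ih0]
        · rw [cnt_cons_some w (tr_ne h1), cnt_cons_some w (tr_ne h1), fin_cons_some w (tr_ne h1)]
          have ih1 := ih (g + φ y) gd true ab (fun _ => ⟨rfl, (hg h0).2⟩)
          rw [st_congr' h1 h0 gd ab ab] at ih1
          have i1 : ind (0 : ZMod p) g = 0 := ind_ne h0
          have i2 : ind (0 : ZMod p) (g + φ y) = 0 := ind_ne h1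
          simp only [h0, if_false, decide_true, Bool.and_true, (hg h0).1, adda, i1, i2, if_true,
            zero_add] at ih1 ⊢
          exact ih1
    · rw [if_neg hy, if_neg hy]
      by_cases h0 : g = 0
      · subst h0
        rw [st_zero]
        by_cases h1 : (0 : ZMod p) + φ y = 0
        · have e1 : tr φ (fun _ => true) (fun x => decide (x = b)) (fun x => decide (x = b))
              (0, gd2, ab) y = none := by
            rw [tr_eq h1]; simp [hy]
          have e2 : tr φ (fun x => decide (x = b)) (fun _ => true) (fun x => decide (x = b))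
              (0, gd, ab) y = none := by
            rw [tr_eq h1]; simp [hy]
          have a1 : W (adda φ) b (ind 0) (adda φ 0 y) w = W (adda φ) b (ind 0) 0 w := by
            rw [adda, h1]
          have a2 : W (adda φ) b (ind 0) (adda φ (0 + φ b) y) w =
              W (adda φ) b (ind 0) (0 + φ b) w := by
            rw [adda, add_right_comm, h1]
          rw [cnt_cons_none w e1, cnt_cons_none w e2, fin_cons_none w e2, a1, a2]
          push_cast
          linarith only [ih0]
        · rw [cnt_cons_some w (tr_ne h1), cnt_cons_some w (tr_ne h1), fin_cons_some w (tr_ne h1)]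
          have ih1 := ih (0 + φ y) false true false (fun _ => ⟨rfl, by decide⟩)
          have a2 : W (adda φ) b (ind 0) (adda φ (0 + φ b) y) w =
              W (adda φ) b (ind 0) (0 + φ y + φ b) w := by
            rw [adda, add_right_comm]
          rw [a2]
          rw [st_false] at ih1
          simp only [if_true, hy, decide_false, adda] at ih1 ⊢
          linarith only [ih1]
      · by_cases h1 : g + φ y = 0
        · have e1 : tr φ (fun _ => true) (fun x => decide (x = b)) (fun x => decide (x = b))
              (g, gd2, ab) y = none := by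
            rw [tr_eq h1]; simp [hy]
          have e2 : tr φ (fun x => decide (x = b)) (fun _ => true) (fun x => decide (x = b))
              (g, gd, ab) y = if gd then some (0, false, false) else none := by
            rw [tr_eq h1]; simp [h0, hy]
          have a1 : W (adda φ) b (ind 0) (adda φ g y) w = W (adda φ) b (ind 0) 0 w := by
            rw [adda, h1]
          have a2 : W (adda φ) b (ind 0) (adda φ (g + φ b) y) w =
              W (adda φ) b (ind 0) (0 + φ b) w := by
            rw [adda, add_right_comm, h1]
          rw [a1, a2, cnt_cons_none w e1]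
          cases gd
          · have e2' := e2.trans (if_neg (by decide))
            rw [cnt_cons_none w e2', fin_cons_none w e2', st_false]
            push_cast
            linarith only [ih0]
          · have e2' := e2.trans (if_pos (by rfl))
            rw [cnt_cons_some w e2', fin_cons_some w e2', st_true h0]
            push_cast
            linarith only [ih0]
        · rw [cnt_cons_some w (tr_ne h1), cnt_cons_some w (tr_ne h1), fin_cons_some w (tr_ne h1)]
          have ih1 := ih (g + φ y) gd true false (fun _ => ⟨rfl, fun h => absurd h (by decide)⟩)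
          have a2 : W (adda φ) b (ind 0) (adda φ (g + φ b) y) w =
              W (adda φ) b (ind 0) (g + φ y + φ b) w := by
            rw [adda, add_right_comm]
          rw [a2]
          rw [st_congr' h1 h0 gd false ab] at ih1
          simp only [h0, if_false, hy, decide_false, Bool.and_false, (hg h0).1, adda] at ih1 ⊢
          linarith only [ih1]

theorem zero_formula (hb : φ b = 0) (w : List α) (g : ZMod p) :
    open Classical in
    (cnt (tr φ (fun _ => false) (fun _ => false) (fun _ => false))
      (0, false, false) (g, false, false) w : ℤ)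
    - cnt (tr φ (fun x => decide (x = b)) (fun x => decide (x = b)) (fun _ => false))
      (0, false, false) (g, false, false) w
    = W (adda φ) b (ind 0) g w := by
  classical
  induction w generalizing g with
  | nil => simp [cnt_nil, W_nil]
  | cons y w ih =>
    rw [W_cons]
    by_cases h1 : g + φ y = 0
    · have e1 : tr φ (fun _ => false) (fun _ => false) (fun _ => false) (g, false, false) y =
          none := by
        rw [tr_eq h1]; simp
      have a1 : W (adda φ) b (ind 0) (adda φ g y) w = W (adda φ) b (ind 0) 0 w := by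
        rw [adda, h1]
      rw [cnt_cons_none w e1, a1]
      have ih0 := ih 0
      by_cases h2 : y = b ∧ g = 0
      · obtain ⟨rfl, rfl⟩ := h2
        have e2 : tr φ (fun x => decide (x = y)) (fun x => decide (x = y)) (fun _ => false)
            (0, false, false) y = some (0, false, false) := by
          rw [tr_eq h1]; simp
        rw [cnt_cons_some w e2, if_pos rfl, ind_self]
        push_cast
        linarith only [ih0]
      · have e2 : tr φ (fun x => decide (x = b)) (fun x => decide (x = b)) (fun _ => false)
            (g, false, false) y = none := by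
          rw [tr_eq h1]
          by_cases h3 : g = 0
          · have h4 : y ≠ b := fun h => h2 ⟨h, h3⟩
            simp [h4]
          · simp [h3]
        rw [cnt_cons_none w e2]
        have h3 : (if y = b then ind 0 g else 0) = 0 := by
          by_cases h4 : y = b
          · rw [if_pos h4]
            exact ind_ne fun h => h2 ⟨h4, h⟩
          · rw [if_neg h4]
        rw [h3]
        push_cast
        linarith only [ih0]
    · rw [cnt_cons_some w (tr_ne h1), cnt_cons_some w (tr_ne h1)]
      have ih1 := ih (g + φ y)
      by_cases h2 : g = 0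
      · subst h2
        have h3 : y ≠ b := by
          rintro rfl; exact h1 (by rw [hb, add_zero])
        simp only [if_true, h3, decide_false, adda, if_false, zero_add] at ih1 ⊢
        exact ih1
      · have h3 : (if y = b then ind 0 g else 0) = 0 := by
          rw [ind_ne h2, ite_self]
        rw [h3]
        simp only [h2, if_false, adda, zero_add, Bool.and_false] at ih1 ⊢
        exact ih1

theorem known_zero [Finite α] [Fact p.Prime] (hb : φ b = 0) (g : ZMod p) :
    KnZ (W (adda φ) b (ind 0) g) := by
  classical
  have h1 := KnZ.of_event (tr_noCyc (φ := φ) (F := fun _ => false) (L := fun _ => false)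
    (B := fun _ => false) (Or.inl (by simp))) (0, false, false) (g, false, false)
  have h2 := KnZ.of_event (tr_noCyc (φ := φ) (F := fun x => decide (x = b))
    (L := fun x => decide (x = b)) (B := fun _ => false) (Or.inr (by
      intro x hx _
      rw [of_decide_eq_true hx, hb]))) (0, false, false) (g, false, false)
  exact (h1.sub h2).congr fun w => (zero_formula φ b hb w g).symm

theorem known_diff [Finite α] [Fact p.Prime] (hb : φ b ≠ 0) (g : ZMod p) :
    KnZ fun w => W (adda φ) b (ind 0) g w - W (adda φ) b (ind 0) (g + φ b) w := by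
  classical
  have n1 := tr_noCyc (φ := φ) (F := fun _ => true) (L := fun x => decide (x = b))
    (B := fun x => decide (x = b)) (Or.inl (by intro x _ h; exact h))
  have n2 := tr_noCyc (φ := φ) (F := fun x => decide (x = b)) (L := fun _ => true)
    (B := fun x => decide (x = b)) (Or.inl (by intro x h _; exact h))
  have h1 := KnZ.of_event n1 (0, false, false) (g, true, false)
  have h2 := KnZ.of_event n2 (0, false, false) (g, false, false)
  have h3 := KnZ.of_kn (Kn.of_event n2 (0, false, false) (g, false, false)) st
  apply ((h1.sub h2).add h3).congr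
  intro w
  have := diff_formula φ b hb w g false true false (fun _ => ⟨rfl, fun h => absurd h (by decide)⟩)
  rw [st_false, add_zero] at this
  exact this.symm

theorem W_total (b : α) (g : ZMod p) [NeZero p] (w : List α) :
    ∑ r : ZMod p, W (adda φ) b (ind 0) r w = W (adda φ) b (fun _ => 1) g w := by
  classical
  induction w generalizing g with
  | nil => simp [W_nil]
  | cons y w ih =>
    simp only [W_cons]
    rw [Finset.sum_add_distrib]
    have h1 : ∑ r : ZMod p, W (adda φ) b (ind 0) (adda φ r y) w =
        ∑ r : ZMod p, W (adda φ) b (ind 0) r w :=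
      Fintype.sum_equiv (Equiv.addRight (φ y)) _ _ (fun r => rfl)
    rw [h1, ih (adda φ g y)]
    congr 1
    by_cases hy : y = b
    · simp only [hy, if_true]
      rw [Finset.sum_eq_single (0 : ZMod p)]
      · exact ind_self 0
      · intro r _ hr; exact ind_ne hr
      · intro h; exact absurd (Finset.mem_univ _) h
    · simp [hy]

theorem known_Zp [Finite α] [hp : Fact p.Prime] (g : ZMod p) :
    KnZ (W (adda φ) b (ind 0) g) := by
  by_cases hb : φ b = 0
  · exact known_zero φ b hb g
  · have h1 : ∀ k : ℕ, KnZ fun w => W (adda φ) b (ind 0) g w -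
        W (adda φ) b (ind 0) (g + k * φ b) w := by
      intro k
      induction k with
      | zero => exact (KnZ.const 0).congr fun w => by simp
      | succ k ih =>
        apply (ih.add (known_diff φ b hb (g + k * φ b))).congr
        intro w
        have : g + ((k + 1 : ℕ) : ZMod p) * φ b = g + k * φ b + φ b := by push_cast; ring
        rw [this]; ring
    have h2 : ∀ r : ZMod p, KnZ fun w => W (adda φ) b (ind 0) g w -
        W (adda φ) b (ind 0) r w := by
      intro r
      have h3 := h1 ((r - g) / φ b : ZMod p).val
      rw [ZMod.natCast_val, ZMod.cast_id', id, div_mul_cancel₀ _ hb, add_sub_cancel] at h3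
      exact h3
    apply KnZ.div hp.out.pos
    apply ((KnZ.sum Finset.univ fun r _ => h2 r).add (len_known (adda φ) b g)).congr
    intro w
    rw [Finset.sum_sub_distrib, Finset.sum_const, Finset.card_univ, ZMod.card,
      W_total φ b g w, nsmul_eq_mul]
    ring

end Zp

end Vale.Agent.P329
end
end

section

section

namespace Vale.Agent.P329

section Elem

variable {α : Type} {p : ℕ} {Q : Type} [AddCommGroup Q] [Module (ZMod p) Q]

/-- addition of letter values in a general additive group -/
def addq (ψ : α → Q) (q : Q) (x : α) : Q := q + ψ x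

theorem W_char (ψ : α → Q) (x : α) (χ : Q →ₗ[ZMod p] ZMod p) (t : ZMod p) (q : Q) (w : List α) :
    W (addq ψ) x (fun r => ind t (χ r)) q w =
      W (adda fun y => χ (ψ y)) x (ind 0) (χ q - t) w := by
  induction w generalizing q with
  | nil => rfl
  | cons y w ih =>
    rw [W_cons, W_cons, ih]
    have h1 : χ (addq ψ q y) - t = adda (fun y => χ (ψ y)) (χ q - t) y := by
      rw [addq, adda, map_add]; ring
    rw [h1]
    congr 1
    by_cases hy : y = x
    · rw [if_pos hy, if_pos hy]
      by_cases h : χ q = t
      · rw [h, sub_self, ind_self, ind_self]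
      · rw [ind_ne h, ind_ne (sub_ne_zero.mpr h)]
    · rw [if_neg hy, if_neg hy]

theorem sum_char [Finite Q] [hp : Fact p.Prime] [Fintype (Q →ₗ[ZMod p] ZMod p)] {d : Q}
    (hd : d ≠ 0) :
    (p : ℤ) * ∑ χ : Q →ₗ[ZMod p] ZMod p, ind 0 (χ d) =
      Fintype.card (Q →ₗ[ZMod p] ZMod p) := by
  obtain ⟨χ₁, h1⟩ : ∃ χ : Q →ₗ[ZMod p] ZMod p, χ d ≠ 0 := by
    by_contra hcon
    push Not at hcon
    exact hd ((Module.forall_dual_apply_eq_zero_iff (ZMod p) d).mp hcon)
  have h2 : ∀ t : ZMod p, ∑ χ : Q →ₗ[ZMod p] ZMod p, ind 0 (χ d + t) =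
      ∑ χ : Q →ₗ[ZMod p] ZMod p, ind 0 (χ d) := by
    intro t
    refine Fintype.sum_equiv (Equiv.addRight ((t / χ₁ d) • χ₁)) _ _ fun χ => ?_
    rw [Equiv.coe_addRight, LinearMap.add_apply, LinearMap.smul_apply, smul_eq_mul,
      div_mul_cancel₀ _ h1]
  have h3 : ∑ t : ZMod p, ∑ χ : Q →ₗ[ZMod p] ZMod p, ind 0 (χ d + t) =
      (p : ℤ) * ∑ χ : Q →ₗ[ZMod p] ZMod p, ind 0 (χ d) := by
    rw [Finset.sum_congr rfl fun t _ => h2 t, Finset.sum_const, Finset.card_univ, ZMod.card,
      nsmul_eq_mul]
  rw [← h3, Finset.sum_comm]
  have h4 : ∀ χ : Q →ₗ[ZMod p] ZMod p, ∑ t : ZMod p, ind 0 (χ d + t) = 1 := by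
    intro χ
    rw [Finset.sum_eq_single (-χ d)]
    · rw [add_neg_cancel, ind_self]
    · intro t _ ht
      apply ind_ne
      intro h
      exact ht (eq_neg_of_add_eq_zero_right h)
    · intro h; exact absurd (Finset.mem_univ _) h
  rw [Finset.sum_congr rfl fun χ _ => h4 χ, Finset.sum_const, Finset.card_univ, nsmul_eq_mul,
    mul_one]

theorem ind_char [Finite Q] [hp : Fact p.Prime] [Fintype (Q →ₗ[ZMod p] ZMod p)] (r q : Q) :
    (p : ℤ) * ∑ χ : Q →ₗ[ZMod p] ZMod p, ind (χ r) (χ q) +
      (-(Fintype.card (Q →ₗ[ZMod p] ZMod p) : ℤ)) * 1 =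
      (Fintype.card (Q →ₗ[ZMod p] ZMod p) * (p - 1 : ℕ) : ℕ) * ind r q := by
  have hp1 : ((p - 1 : ℕ) : ℤ) = p - 1 := by
    have := hp.out.pos
    push_cast [Nat.cast_sub (show 1 ≤ p from this)]
    ring
  by_cases h : q = r
  · subst h
    simp only [ind_self, Finset.sum_const, Finset.card_univ, nsmul_eq_mul]
    push_cast
    rw [hp1]; ring
  · rw [ind_ne h]
    have h1 : ∀ χ : Q →ₗ[ZMod p] ZMod p, ind (χ r) (χ q) = ind 0 (χ (q - r)) := by
      intro χ
      rw [map_sub]
      by_cases h2 : χ q = χ r
      · rw [h2, sub_self, ind_self, ind_self]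
      · rw [ind_ne h2, ind_ne (sub_ne_zero.mpr h2)]
    rw [Finset.sum_congr rfl fun χ _ => h1 χ, sum_char (sub_ne_zero.mpr h)]
    ring

theorem known_elem [Finite α] [Finite Q] [hp : Fact p.Prime] (ψ : α → Q) (x : α) (r q : Q) :
    KnZ (W (addq ψ) x (ind r) q) := by
  classical
  have hfin : Finite (Q →ₗ[ZMod p] ZMod p) :=
    Finite.of_injective (fun χ : Q →ₗ[ZMod p] ZMod p => (χ : Q → ZMod p)) DFunLike.coe_injective
  have := Fintype.ofFinite (Q →ₗ[ZMod p] ZMod p)
  have h1 : ∀ χ : Q →ₗ[ZMod p] ZMod p, KnZ (W (addq ψ) x (fun q' => ind (χ r) (χ q')) q) := by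
    intro χ
    exact (known_Zp (fun y => χ (ψ y)) x (χ q - χ r)).congr fun w => W_char ψ x χ _ q w
  have h2 := (KnZ.sum Finset.univ fun χ _ => h1 χ).mul_left p
  have h3 := (len_known (addq ψ) x q).mul_left (-(Fintype.card (Q →ₗ[ZMod p] ZMod p) : ℤ))
  apply KnZ.div (c := Fintype.card (Q →ₗ[ZMod p] ZMod p) * (p - 1))
  · exact Nat.mul_pos Fintype.card_pos (by have := hp.out.two_le; omega)
  · apply (h2.add h3).congr
    intro w
    rw [← W_mul, ← W_sum, ← W_mul, ← W_mul, ← W_add]
    congr 1
    funext q'
    exact (ind_char r q').symm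

end Elem

end Vale.Agent.P329
end
end

section

section

namespace Vale.Agent.P329

/-- product of values along the run of an automaton -/
def Pr {α Q H : Type} [Monoid H] (act : Q → α → Q) (c : Q → α → H) (q : Q) : List α → H
  | [] => 1
  | y :: w => c q y * Pr act c (act q y) w

section Pr

variable {α Q : Type} {act : Q → α → Q}

theorem Pr_nil {H : Type} [Monoid H] (c : Q → α → H) (q : Q) : Pr act c q [] = 1 := rfl
theorem Pr_cons {H : Type} [Monoid H] (c : Q → α → H) (q : Q) (y : α) (w : List α) :
    Pr act c q (y :: w) = c q y * Pr act c (act q y) w := rfl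

theorem Pr_formula [Fintype α] [Fintype Q] {H : Type} [CommGroup H] (c : Q → α → H) (q : Q)
    (w : List α) :
    Pr act c q w = ∏ r : Q, ∏ y : α, c r y ^ (W act y (ind r) q w) := by
  classical
  induction w generalizing q with
  | nil => simp only [Pr_nil, W_nil, zpow_ofNat, pow_zero, Finset.prod_const_one]
  | cons x w ih =>
    rw [Pr_cons, ih]
    simp only [W_cons, zpow_add, Finset.prod_mul_distrib]
    congr 1
    rw [Finset.prod_eq_single q]
    · rw [Finset.prod_eq_single x]
      · rw [if_pos rfl, ind_self, zpow_one]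
      · intro y _ hy
        rw [if_neg (Ne.symm hy), zpow_zero]
      · intro h; exact absurd (Finset.mem_univ _) h
    · intro r _ hr
      apply Finset.prod_eq_one
      intro y _
      rw [ind_ne (Ne.symm hr), ite_self, zpow_zero]
    · intro h; exact absurd (Finset.mem_univ _) h

theorem Pr_known [Finite α] [Finite Q] {H : Type} [CommGroup H] [Finite H]
    (hk : ∀ x r q, KnZ (W act x (ind r) q)) (c : Q → α → H) (q : Q) : Kn (Pr act c q) := by
  have := Fintype.ofFinite α
  have := Fintype.ofFinite Q
  have hne : NeZero (Nat.card H) := ⟨Nat.card_pos.ne'⟩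
  have h1 : Kn fun w => fun (ry : Q × α) =>
      ((W act ry.2 (ind ry.1) q w : ℤ) : ZMod (Nat.card H)) :=
    Kn.pi fun ry => hk ry.2 ry.1 q (Nat.card H) Nat.card_pos
  have h2 := h1.comp fun t => ∏ r : Q, ∏ y : α, c r y ^ (t (r, y)).val
  have h3 : Pr act c q = fun w => ∏ r : Q, ∏ y : α, c r y ^
      (((W act y (ind r) q w : ℤ) : ZMod (Nat.card H))).val := by
    funext w
    rw [Pr_formula]
    refine Finset.prod_congr rfl fun r _ => Finset.prod_congr rfl fun y _ => ?_
    rw [← zpow_natCast, ZMod.val_intCast, zpow_mod_natCard]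
  rw [h3]
  exact h2

end Pr

/-- A letter weighting in a finite commutative group. -/
theorem comm_known {α : Type} [Finite α] {H : Type} [CommGroup H] [Finite H] (f : α → H) :
    Kn fun w : List α => (w.map f).prod := by
  have h := Pr_known (Q := Unit) (act := fun _ _ => ()) (H := H) (α := α) (by
    intro x r q
    have h1 : (ind r : Unit → ℤ) = fun _ => 1 := by
      funext u; exact ind_self r
    rw [h1]
    exact len_known (fun _ _ => ()) x q) (fun _ y => f y) ()
  have h2 : (Pr (fun _ _ => ()) (fun (_ : Unit) y => f y) ()) =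
      fun w : List α => (w.map f).prod := by
    funext w
    induction w with
    | nil => rfl
    | cons y w ih => rw [Pr_cons, ih, List.map_cons, List.prod_cons]
  rw [← h2]; exact h

theorem group_known {α : Type} [Finite α] {G : Type} [Group G] [Finite G]
    {p : ℕ} (hp : p.Prime) (A : Subgroup G)
    (hA : ∀ a ∈ A, ∀ b ∈ A, a * b = b * a)
    (hcomm : ∀ g h : G, g * h * g⁻¹ * h⁻¹ ∈ A)
    (hpow : ∀ g : G, g ^ p ∈ A)
    (f : α → G) : Kn fun w : List α => (w.map f).prod := by
  have hfact : Fact p.Prime := ⟨hp⟩
  have hN : A.Normal := by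
    constructor
    intro n hn g
    have h1 := A.mul_mem (hcomm g n) hn
    simpa only [mul_assoc, inv_mul_cancel, mul_one] using h1
  let cA : CommGroup A :=
    { (inferInstance : Group A) with mul_comm := fun a b => Subtype.ext (hA a a.2 b b.2) }
  let cQ : CommGroup (G ⧸ A) :=
    { (inferInstance : Group (G ⧸ A)) with
      mul_comm := by
        intro a b
        induction a using QuotientGroup.induction_on with | _ a =>
        induction b using QuotientGroup.induction_on with | _ b =>
        change ((a * b : G) : G ⧸ A) = ((b * a : G) : G ⧸ A)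
        rw [QuotientGroup.eq]
        have := hcomm b⁻¹ a⁻¹
        simpa only [mul_inv_rev, mul_assoc, inv_inv] using this }
  let mQ : Module (ZMod p) (Additive (G ⧸ A)) := AddCommGroup.zmodModule (by
    intro x
    induction x using Additive.rec with | _ x =>
    induction x using QuotientGroup.induction_on with | _ a =>
    change ((a ^ p : G) : G ⧸ A) = 1
    exact (QuotientGroup.eq_one_iff _).mpr (hpow a))
  have hfQ : Finite (Additive (G ⧸ A)) := inferInstanceAs (Finite (G ⧸ A))
  have hk : ∀ (x : α) (r q : G ⧸ A),
      KnZ (W (fun (q : G ⧸ A) y => q * (f y : G ⧸ A)) x (ind r) q) := fun x r q =>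
    known_elem (p := p) (Q := Additive (G ⧸ A)) (fun y => Additive.ofMul (f y : G ⧸ A)) x
      (Additive.ofMul r) (Additive.ofMul q)
  let s : G ⧸ A → G := Quotient.out
  have hs : ∀ q : G ⧸ A, (s q : G ⧸ A) = q := fun q => Quotient.out_eq' q
  have hmem : ∀ (q : G ⧸ A) (g : G), s q * g * (s (q * (g : G ⧸ A)))⁻¹ ∈ A := by
    intro q g
    rw [← QuotientGroup.eq_one_iff]
    change (s q : G ⧸ A) * (g : G ⧸ A) * (s (q * (g : G ⧸ A)) : G ⧸ A)⁻¹ = 1
    rw [hs, hs]
    exact mul_inv_cancel _
  let c : G ⧸ A → α → A := fun q y => ⟨_, hmem q (f y)⟩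
  have h1 : Kn (Pr (fun (q : G ⧸ A) y => q * (f y : G ⧸ A)) c 1) := Pr_known hk c 1
  have h2 : Kn fun w : List α => (w.map fun y => (f y : G ⧸ A)).prod := comm_known _
  have h3 : ∀ (w : List α) (q : G ⧸ A),
      ((Pr (fun (q : G ⧸ A) y => q * (f y : G ⧸ A)) c q w : A) : G) =
      s q * (w.map f).prod * (s (q * (w.map fun y => (f y : G ⧸ A)).prod))⁻¹ := by
    intro w
    induction w with
    | nil => intro q; simp only [Pr_nil, OneMemClass.coe_one, List.map_nil, List.prod_nil, mul_one, mul_inv_cancel]
    | cons y w ih =>
      intro q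
      rw [Pr_cons, Subgroup.coe_mul, ih]
      simp only [c, List.map_cons, List.prod_cons]
      rw [← mul_assoc q]
      group
  have h4 := h1.comp₂ h2 fun a q => (s 1)⁻¹ * (a : G) * s (1 * q)
  have h5 : (fun w : List α => (w.map f).prod) = fun w =>
      (s 1)⁻¹ * ((Pr (fun (q : G ⧸ A) y => q * (f y : G ⧸ A)) c 1 w : A) : G) *
        s (1 * (w.map fun y => (f y : G ⧸ A)).prod) := by
    funext w
    rw [h3]; group
  rw [h5]
  exact h4

end Vale.Agent.P329
end
end

section

/-! Nilpotent groups of class three, part A: counting functions. -/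

namespace Vale.Agent.P329

section pot

variable {α σ : Type} {δ : σ → α → Option σ}

theorem run_pot {pot : σ → ℕ} (h : ∀ s x t, δ s x = some t → t = s ∨ pot s < pot t)
    {w : List α} {s t : σ} (hw : run δ s w = some t) : pot s ≤ pot t := by
  induction w generalizing s with
  | nil => cases hw; exact le_rfl
  | cons x w ih =>
    obtain ⟨s', h1, h2⟩ := run_cons_eq_some hw
    have h3 := ih h2
    rcases h s x s' h1 with rfl | h4
    · exact h3
    · omega

theorem run_loop {pot : σ → ℕ} (h : ∀ s x t, δ s x = some t → t = s ∨ pot s < pot t)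
    {w : List α} {s t : σ} (hw : run δ s w = some t) (hp : pot t ≤ pot s) : t = s := by
  induction w generalizing s with
  | nil => cases hw; rfl
  | cons x w ih =>
    obtain ⟨s', h1, h2⟩ := run_cons_eq_some hw
    have h3 := run_pot h h2
    rcases h s x s' h1 with rfl | h4
    · exact ih h2 hp
    · omega

/-- An automaton all of whose transitions are loops or increase a potential has no cycles. -/
theorem noCyc_of_pot (pot : σ → ℕ) (h : ∀ s x t, δ s x = some t → t = s ∨ pot s < pot t) :
    NoCyc δ := by
  apply noCyc_of
  intro z s n _ hn hs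
  obtain ⟨m, rfl⟩ : ∃ m, n = m + 1 := ⟨n - 1, by omega⟩
  rw [pw_succ] at hs
  obtain ⟨s', h1, h2⟩ := run_append_eq_some hs
  rw [h1, run_loop h h1 (run_pot h h2)]

end pot

section N1

variable {α : Type} {n : ℕ}

open Classical in
/-- every return to `0` is an event -/
noncomputable def dA (φ : α → ZMod n) (g : ZMod n) (x : α) : Option (ZMod n) :=
  if g + φ x = 0 then none else some (g + φ x)

open Classical in
/-- the same, but the letter `b` at `0` is silent -/
noncomputable def dB (φ : α → ZMod n) (b : α) (g : ZMod n) (x : α) : Option (ZMod n) :=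
  if g + φ x = 0 then (if g = 0 ∧ x = b then some 0 else none) else some (g + φ x)

theorem val_step [NeZero n] {g c : ZMod n} (hc : c = 0 ∨ c = 1) (h : g + c ≠ 0) :
    g + c = g ∨ g.val < (g + c).val := by
  rcases hc with rfl | rfl
  · left; rw [add_zero]
  · right
    by_cases hn1 : n = 1
    · subst hn1
      exact absurd (Subsingleton.elim _ _) h
    · have h1 : (g + 1).val = (g.val + 1) % n := by
        rw [ZMod.val_add, ZMod.val_one'' hn1]
      have h2 := ZMod.val_lt g
      have h3 : g.val + 1 ≠ n := by
        intro h3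
        apply h
        rw [← ZMod.val_eq_zero, h1, h3, Nat.mod_self]
      rw [h1, Nat.mod_eq_of_lt (by omega)]
      omega

theorem dA_noCyc [NeZero n] {φ : α → ZMod n} (hφ : ∀ x, φ x = 0 ∨ φ x = 1) : NoCyc (dA φ) := by
  apply noCyc_of_pot ZMod.val
  intro s x t h
  unfold dA at h
  by_cases h0 : s + φ x = 0
  · rw [if_pos h0] at h; cases h
  · rw [if_neg h0] at h
    cases h
    exact val_step (hφ x) h0

theorem dB_noCyc [NeZero n] {φ : α → ZMod n} (hφ : ∀ x, φ x = 0 ∨ φ x = 1) (b : α) :
    NoCyc (dB φ b) := by
  apply noCyc_of_pot ZMod.val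
  intro s x t h
  unfold dB at h
  by_cases h0 : s + φ x = 0
  · rw [if_pos h0] at h
    by_cases h1 : s = 0 ∧ x = b
    · rw [if_pos h1] at h
      cases h
      exact Or.inl h1.1.symm
    · rw [if_neg h1] at h; cases h
  · rw [if_neg h0] at h
    cases h
    exact val_step (hφ x) h0

theorem ab_formula (φ : α → ZMod n) (b : α) (hb : φ b = 0) (w : List α) (g : ZMod n) :
    (cnt (dA φ) 0 g w : ℤ) - cnt (dB φ b) 0 g w = W (adda φ) b (ind 0) g w := by
  classical
  induction w generalizing g with
  | nil => simp [cnt_nil, W_nil]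
  | cons y w ih =>
    rw [W_cons]
    by_cases h1 : g + φ y = 0
    · have e1 : dA φ g y = none := if_pos h1
      have a1 : W (adda φ) b (ind 0) (adda φ g y) w = W (adda φ) b (ind 0) 0 w := by
        rw [adda, h1]
      have ih0 := ih 0
      rw [cnt_cons_none w e1, a1]
      by_cases h2 : g = 0 ∧ y = b
      · have e2 : dB φ b g y = some 0 := (if_pos h1).trans (if_pos h2)
        rw [cnt_cons_some w e2, if_pos h2.2, h2.1, ind_self]
        push_cast
        linarith only [ih0]
      · have e2 : dB φ b g y = none := (if_pos h1).trans (if_neg h2)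
        have h3 : (if y = b then ind 0 g else 0) = 0 := by
          by_cases h4 : y = b
          · rw [if_pos h4]
            exact ind_ne fun h => h2 ⟨h, h4⟩
          · rw [if_neg h4]
        rw [cnt_cons_none w e2, h3]
        push_cast
        linarith only [ih0]
    · have e1 : dA φ g y = some (g + φ y) := if_neg h1
      have e2 : dB φ b g y = some (g + φ y) := if_neg h1
      rw [cnt_cons_some w e1, cnt_cons_some w e2]
      have h3 : (if y = b then ind 0 g else 0) = 0 := by
        by_cases h4 : y = b
        · rw [if_pos h4]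
          refine ind_ne fun h => h1 ?_
          rw [h4, hb, h, add_zero]
        · rw [if_neg h4]
      rw [h3, zero_add]
      exact ih (g + φ y)

theorem W_shift (φ : α → ZMod n) (b : α) (r g : ZMod n) (w : List α) :
    W (adda φ) b (ind r) g w = W (adda φ) b (ind 0) (g - r) w := by
  induction w generalizing g with
  | nil => rfl
  | cons y w ih =>
    rw [W_cons, W_cons, ih]
    have h1 : ind r g = ind 0 (g - r) := by
      by_cases h : g = r
      · rw [h, ind_self, sub_self, ind_self]
      · rw [ind_ne h, ind_ne (sub_ne_zero.2 h)]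
    have h2 : adda φ g y - r = adda φ (g - r) y := by
      unfold adda; ring
    rw [h1, h2]

theorem known_ind [Finite α] [NeZero n] {φ : α → ZMod n} (hφ : ∀ x, φ x = 0 ∨ φ x = 1) {b : α}
    (hb : φ b = 0) (r g : ZMod n) : KnZ (W (adda φ) b (ind r) g) := by
  have h1 := KnZ.of_event (dA_noCyc hφ) 0 (g - r)
  have h2 := KnZ.of_event (dB_noCyc hφ b) 0 (g - r)
  refine (h1.sub h2).congr fun w => ?_
  rw [W_shift, ← ab_formula φ b hb w (g - r)]

end N1

section acc

variable {α : Type}

open Classical in
/-- auxiliary: recursion on the reversed word -/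
noncomputable def accR (y : α) (F : List α → ℤ) : List α → ℤ
  | [] => 0
  | x :: u => accR y F u + if x = y then F u.reverse else 0

/-- the sum of `F (prefix before k)` over the positions `k` of the letter `y` -/
noncomputable def acc (y : α) (F : List α → ℤ) (w : List α) : ℤ := accR y F w.reverse

theorem acc_nil (y : α) (F : List α → ℤ) : acc y F [] = 0 := rfl

open Classical in
theorem acc_snoc (y : α) (F : List α → ℤ) (w : List α) (x : α) :
    acc y F (w ++ [x]) = acc y F w + if x = y then F w else 0 := by
  rw [acc, List.reverse_append, List.reverse_singleton, List.singleton_append, accR,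
    List.reverse_reverse]
  rfl

open Classical in
theorem W_snoc {Q : Type} (act : Q → α → Q) (x : α) (Φ : Q → ℤ) (q : Q) (w : List α) (y : α) :
    W act x Φ q (w ++ [y]) = W act x Φ q w + if y = x then Φ (w.foldl act q) else 0 := by
  induction w generalizing q with
  | nil => rw [List.nil_append, W_cons, W_nil, W_nil, List.foldl_nil, add_comm]
  | cons z w ih => rw [List.cons_append, W_cons, W_cons, ih, List.foldl_cons, add_assoc]

theorem W_eq_acc {Q : Type} (act : Q → α → Q) (x : α) (Φ : Q → ℤ) (q : Q) (w : List α) :
    W act x Φ q w = acc x (fun u => Φ (u.foldl act q)) w := by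
  induction w using List.reverseRecOn with
  | nil => rfl
  | append_singleton w y ih => rw [W_snoc, acc_snoc, ih]

open Classical in
/-- number of letters with the property `p` -/
noncomputable def ctp (p : α → Prop) (w : List α) : ℤ :=
  (w.map fun x => if p x then (1 : ℤ) else 0).sum

theorem ctp_nil (p : α → Prop) : ctp p [] = 0 := rfl

open Classical in
theorem ctp_snoc (p : α → Prop) (w : List α) (x : α) :
    ctp p (w ++ [x]) = ctp p w + if p x then (1 : ℤ) else 0 := by
  rw [ctp, List.map_append, List.sum_append, List.map_singleton, List.sum_singleton]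
  rfl

open Classical in
/-- letter values -/
noncomputable def phip (n : ℕ) (p : α → Prop) (x : α) : ZMod n := if p x then 1 else 0

theorem phip_or (n : ℕ) (p : α → Prop) (x : α) : phip n p x = 0 ∨ phip n p x = 1 := by
  unfold phip
  by_cases h : p x
  · rw [if_pos h]; exact Or.inr rfl
  · rw [if_neg h]; exact Or.inl rfl

theorem foldl_phip (n : ℕ) (p : α → Prop) (w : List α) :
    w.foldl (adda (phip n p)) 0 = ((ctp p w : ℤ) : ZMod n) := by
  classical
  induction w using List.reverseRecOn with
  | nil => rw [List.foldl_nil, ctp_nil, Int.cast_zero]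
  | append_singleton w y ih =>
    rw [List.foldl_append, List.foldl_cons, List.foldl_nil, ih, ctp_snoc, adda, Int.cast_add,
      phip]
    congr 1
    split_ifs
    · rw [Int.cast_one]
    · rw [Int.cast_zero]

/-- N1 -/
theorem known_acc_ind [Finite α] {n : ℕ} [NeZero n] {p : α → Prop} {y : α} (hy : ¬ p y)
    (r : ZMod n) : KnZ (acc y fun u => ind r ((ctp p u : ℤ) : ZMod n)) := by
  have hb : phip n p y = 0 := if_neg hy
  refine (known_ind (phip_or n p) hb r 0).congr fun w => ?_
  rw [W_eq_acc]
  congr 1
  funext u
  rw [foldl_phip]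

/-- N2 -/
theorem known_acc [Finite α] {p : α → Prop} {y : α} (hy : ¬ p y) {f : ℤ → ℤ}
    (hf : ∀ n : ℕ, ∃ F : ZMod n → ZMod n, ∀ t : ℤ, ((f t : ℤ) : ZMod n) = F t) :
    KnZ (acc y fun u => f (ctp p u)) := by
  classical
  intro n hn
  have hne : NeZero n := ⟨hn.ne'⟩
  obtain ⟨F, hF⟩ := hf n
  have h1 : Kn fun w => fun r : ZMod n =>
      ((acc y (fun u => ind r ((ctp p u : ℤ) : ZMod n)) w : ℤ) : ZMod n) :=
    Kn.pi fun r => known_acc_ind hy r n hn
  have h2 := h1.comp fun t => ∑ r : ZMod n, F r * t r
  have h3 : (fun w => ((acc y (fun u => f (ctp p u)) w : ℤ) : ZMod n)) = fun w =>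
      ∑ r : ZMod n, F r *
        ((acc y (fun u => ind r ((ctp p u : ℤ) : ZMod n)) w : ℤ) : ZMod n) := by
    funext w
    induction w using List.reverseRecOn with
    | nil => simp [acc_nil]
    | append_singleton w x ih =>
      simp only [acc_snoc, Int.cast_add, mul_add, Finset.sum_add_distrib]
      rw [ih]
      congr 1
      by_cases hx : x = y
      · simp only [if_pos hx]
        rw [hF, Finset.sum_eq_single ((ctp p w : ℤ) : ZMod n)]
        · rw [ind_self, Int.cast_one, mul_one]
        · intro r _ hr
          rw [ind_ne (Ne.symm hr), Int.cast_zero, mul_zero]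
        · intro h; exact absurd (Finset.mem_univ _) h
      · simp [if_neg hx]
  rw [h3]
  exact h2

theorem KnZ.mul {N M : List α → ℤ} (hN : KnZ N) (hM : KnZ M) : KnZ fun w => N w * M w := by
  intro n hn
  have hne : NeZero n := ⟨hn.ne'⟩
  have := (hN n hn).comp₂ (hM n hn) fun x y => x * y
  simpa only [Int.cast_mul] using this

theorem known_ctp [Finite α] (s : α) : KnZ (ctp fun x => x = s) := by
  refine (len_known (fun (_ : Unit) _ => ()) s ()).congr fun w => ?_
  rw [W_eq_acc]
  induction w using List.reverseRecOn with
  | nil => rfl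
  | append_singleton w x ih => rw [ctp_snoc, acc_snoc, ih]

theorem known_acc_id [Finite α] {p : α → Prop} {y : α} (hy : ¬ p y) :
    KnZ (acc y fun u => ctp p u) :=
  known_acc hy (f := fun t => t) fun _ => ⟨fun r => r, fun _ => rfl⟩

theorem known_acc_sq [Finite α] {p : α → Prop} {y : α} (hy : ¬ p y) :
    KnZ (acc y fun u => ctp p u ^ 2) :=
  known_acc hy (f := fun t => t ^ 2) fun _ => ⟨fun r => r ^ 2, fun _ => by push_cast; rfl⟩

/-- N3 -/
theorem known_D [Finite α] {s y z : α} (hy : y ≠ s) (hz : z ≠ s) :
    KnZ (acc y fun u => ctp (fun x => x = s) u * ctp (fun x => x = z) u) := by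
  classical
  by_cases hzy : z = y
  · subst hzy
    have h1 := (known_ctp (α := α) s).mul ((known_ctp (α := α) z).mul
      ((known_ctp (α := α) z).sub (KnZ.const 1)))
    have h2 := known_acc_sq (α := α) (p := fun x => x = z) (y := s) hz.symm
    have h3 := known_acc_id (α := α) (p := fun x => x = z) (y := s) hz.symm
    refine KnZ.div (c := 2) two_pos (((h1.sub h2).add h3).congr fun w => ?_)
    induction w using List.reverseRecOn with
    | nil => simp [acc_nil, ctp_nil]
    | append_singleton w x ih =>
      simp only [acc_snoc, ctp_snoc] at ih ⊢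
      push_cast at ih ⊢
      by_cases h1 : x = s
      · have h2 : ¬ x = z := fun h => hz (h.symm.trans h1)
        simp only [if_pos h1, if_neg h2, add_zero]
        linear_combination ih
      · by_cases h2 : x = z
        · simp only [if_neg h1, if_pos h2, add_zero]
          linear_combination ih
        · simp only [if_neg h1, if_neg h2, add_zero]
          exact ih
  · have hp : ¬ (y = s ∨ y = z) := by
      rintro (h | h)
      · exact hy h
      · exact hzy h.symm
    have h1 := known_acc_sq (α := α) (p := fun x => x = s ∨ x = z) (y := y) hp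
    have h2 := known_acc_sq (α := α) (p := fun x => x = s) (y := y) hy
    have h3 := known_acc_sq (α := α) (p := fun x => x = z) (y := y) (Ne.symm hzy)
    have hsum : ∀ w : List α, ctp (fun x => x = s ∨ x = z) w =
        ctp (fun x => x = s) w + ctp (fun x => x = z) w := by
      intro w
      induction w using List.reverseRecOn with
      | nil => simp [ctp_nil]
      | append_singleton w x ih =>
        rw [ctp_snoc, ctp_snoc, ctp_snoc, ih]
        by_cases h1 : x = s
        · have h2 : ¬ x = z := fun h => hz (h.symm.trans h1)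
          rw [if_pos (Or.inl h1), if_pos h1, if_neg h2]
          ring
        · by_cases h2 : x = z
          · rw [if_pos (Or.inr h2), if_neg h1, if_pos h2]
            ring
          · rw [if_neg (by rintro (h | h); exacts [h1 h, h2 h]), if_neg h1, if_neg h2]
            ring
    refine KnZ.div (c := 2) two_pos (((h1.sub h2).sub h3).congr fun w => ?_)
    induction w using List.reverseRecOn with
    | nil => simp [acc_nil]
    | append_singleton w x ih =>
      simp only [acc_snoc] at ih ⊢
      push_cast at ih ⊢
      by_cases h1 : x = y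
      · simp only [if_pos h1, hsum]
        simp only [hsum] at ih
        linear_combination ih
      · simp only [if_neg h1, add_zero]
        exact ih

end acc

section prod

variable {α : Type}

theorem zpow_val {H : Type} [Group H] (N : ℕ) (hN : N = Nat.card H) (e : H) (m : ℤ)
    [NeZero N] : e ^ ((m : ℤ) : ZMod N).val = e ^ m := by
  subst hN
  rw [← zpow_natCast, ZMod.val_intCast, zpow_mod_natCard]

/-- products of powers of fixed elements of a finite commutative group -/
theorem kn_prod_zpow {ι : Type} [Fintype ι] {H : Type} [CommGroup H] [Finite H] (e : ι → H)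
    (N : ι → List α → ℤ) (h : ∀ i, e i = 1 ∨ KnZ (N i)) :
    Kn fun w : List α => ∏ i, e i ^ N i w := by
  classical
  have hne : NeZero (Nat.card H) := ⟨Nat.card_pos.ne'⟩
  have h1 : Kn fun w : List α => fun i : ι =>
      if e i = 1 then (0 : ZMod (Nat.card H)) else ((N i w : ℤ) : ZMod (Nat.card H)) := by
    refine Kn.pi fun i => ?_
    by_cases hi : e i = 1
    · simp only [if_pos hi]
      exact Kn.const _
    · simp only [if_neg hi]
      exact ((h i).resolve_left hi) _ Nat.card_pos
  have h2 := h1.comp fun t => ∏ i, e i ^ (t i).val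
  have h3 : (fun w : List α => ∏ i, e i ^ N i w) = fun w => ∏ i, e i ^
      (if e i = 1 then (0 : ZMod (Nat.card H)) else ((N i w : ℤ) : ZMod (Nat.card H))).val := by
    funext w
    refine Finset.prod_congr rfl fun i _ => ?_
    by_cases hi : e i = 1
    · rw [hi, one_zpow, one_pow]
    · rw [if_neg hi, zpow_val (Nat.card H) rfl]
  rw [h3]
  exact h2

end prod

end Vale.Agent.P329

/-! Nilpotent groups of class three, part B: the product in terms of counting functions. -/

open scoped commutatorElement IsMulCommutative

namespace Vale.Agent.P329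

section grp

variable {G : Type} [Group G]

theorem comm_comm_mem_center (hG : ∀ a b c d : G, ⁅⁅⁅a, b⁆, c⁆, d⁆ = 1) (a b c : G) :
    ⁅⁅a, b⁆, c⁆ ∈ Subgroup.center G := by
  rw [Subgroup.mem_center_iff]
  intro g
  exact ((commutatorElement_eq_one_iff_mul_comm).1 (hG a b c g)).symm

theorem commutator_mem_center (hG : ∀ a b c d : G, ⁅⁅⁅a, b⁆, c⁆, d⁆ = 1) {c : G}
    (hc : c ∈ commutator G) (x : G) : ⁅x, c⁆ ∈ Subgroup.center G := by
  have h1 : commutator G ≤ Subgroup.upperCentralSeriesStep (Subgroup.center G) := by
    rw [commutator_eq_closure, Subgroup.closure_le]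
    rintro _ ⟨a, b, rfl⟩
    intro y
    exact comm_comm_mem_center hG a b y
  have h2 : ⁅c, x⁆ ∈ Subgroup.center G := h1 hc x
  rw [← commutatorElement_inv]
  exact Subgroup.inv_mem _ h2

/-- `x ↦ ⁅x, c⁆` is a homomorphism to the center when all its values are central -/
def chiHom (c : G) (hc : ∀ x : G, ⁅x, c⁆ ∈ Subgroup.center G) : G →* Subgroup.center G where
  toFun x := ⟨⁅x, c⁆, hc x⟩
  map_one' := by
    apply Subtype.ext
    exact commutatorElement_one_left c
  map_mul' x y := by
    apply Subtype.ext
    change ⁅x * y, c⁆ = ⁅x, c⁆ * ⁅y, c⁆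
    have h1 := Subgroup.mem_center_iff.1 (hc y) (x * c * x⁻¹ * c⁻¹)
    rw [commutatorElement_def x c, h1]
    have h2 := Subgroup.mem_center_iff.1 (hc y) x
    calc ⁅x * y, c⁆ = x * ⁅y, c⁆ * (c * x⁻¹ * c⁻¹) := by
          rw [commutatorElement_def, commutatorElement_def]; group
      _ = ⁅y, c⁆ * (x * c * x⁻¹ * c⁻¹) := by rw [h2]; simp only [mul_assoc]

theorem chiHom_apply (c : G) (hc : ∀ x : G, ⁅x, c⁆ ∈ Subgroup.center G) (x : G) :
    (chiHom c hc x : G) = ⁅x, c⁆ := rfl

theorem commutator_comm (hG : ∀ a b c d : G, ⁅⁅⁅a, b⁆, c⁆, d⁆ = 1) {a c : G}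
    (ha : a ∈ commutator G) (hc : c ∈ commutator G) : a * c = c * a := by
  have h1 : a ∈ (chiHom c (commutator_mem_center hG hc)).ker :=
    Abelianization.commutator_subset_ker _ ha
  rw [MonoidHom.mem_ker] at h1
  have h2 : ⁅a, c⁆ = 1 := congrArg Subtype.val h1
  exact commutatorElement_eq_one_iff_mul_comm.1 h2

theorem comm_mem (a b : G) : ⁅a, b⁆ ∈ commutator G := by
  rw [commutator_def]
  exact Subgroup.commutator_mem_commutator (Subgroup.mem_top a) (Subgroup.mem_top b)

/-- `x ↦ ⁅z, ⁅x, Y⁆⁆` is a homomorphism to the center -/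
def psiHom (hG : ∀ a b c d : G, ⁅⁅⁅a, b⁆, c⁆, d⁆ = 1) (z Y : G) : G →* Subgroup.center G where
  toFun x := ⟨⁅z, ⁅x, Y⁆⁆, commutator_mem_center hG (comm_mem x Y) z⟩
  map_one' := by
    apply Subtype.ext
    change ⁅z, ⁅(1 : G), Y⁆⁆ = 1
    rw [commutatorElement_one_left, commutatorElement_one_right]
  map_mul' x x' := by
    apply Subtype.ext
    change ⁅z, ⁅x * x', Y⁆⁆ = ⁅z, ⁅x, Y⁆⁆ * ⁅z, ⁅x', Y⁆⁆
    have hb := comm_mem x' Y
    have hζ := commutator_mem_center hG hb x
    have hζa := commutator_mem_center hG (comm_mem x Y) z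
    have h1 : ⁅x * x', Y⁆ = ⁅x, ⁅x', Y⁆⁆ * ⁅x', Y⁆ * ⁅x, Y⁆ := by
      simp only [commutatorElement_def]; group
    generalize ⁅x, ⁅x', Y⁆⁆ = ζ at h1 hζ
    generalize ⁅x', Y⁆ = b at h1 hb
    rw [h1]
    generalize ⁅x, Y⁆ = a at hζa
    have c1 : ⁅z, ζ * b * a⁆ = ⁅z, b⁆ * (b * ⁅z, a⁆ * b⁻¹) := by
      have h2 := Subgroup.mem_center_iff.1 hζ z
      calc ⁅z, ζ * b * a⁆ = z * ζ * (b * a * z⁻¹ * a⁻¹ * b⁻¹) * ζ⁻¹ := by
            rw [commutatorElement_def]; group
        _ = ζ * (z * (b * a * z⁻¹ * a⁻¹ * b⁻¹)) * ζ⁻¹ := by rw [h2]; simp only [mul_assoc]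
        _ = z * (b * a * z⁻¹ * a⁻¹ * b⁻¹) := by
            rw [← Subgroup.mem_center_iff.1 hζ, mul_assoc, mul_inv_cancel, mul_one]
        _ = ⁅z, b⁆ * (b * ⁅z, a⁆ * b⁻¹) := by
            simp only [commutatorElement_def]; group
    rw [c1, Subgroup.mem_center_iff.1 hζa b, mul_assoc, mul_inv_cancel, mul_one]
    exact (Subgroup.mem_center_iff.1 hζa _)

theorem psiHom_apply (hG : ∀ a b c d : G, ⁅⁅⁅a, b⁆, c⁆, d⁆ = 1) (z Y x : G) :
    (psiHom hG z Y x : G) = ⁅z, ⁅x, Y⁆⁆ := rfl

end grp

/-- products over a word in a commutative group -/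
theorem prod_eq_ctp {α : Type} [Fintype α] {H : Type} [CommGroup H] (g : α → H) (w : List α) :
    (w.map g).prod = ∏ z, g z ^ ctp (fun x => x = z) w := by
  classical
  induction w using List.reverseRecOn with
  | nil => simp only [List.map_nil, List.prod_nil, ctp_nil, zpow_ofNat, pow_zero, Finset.prod_const_one]
  | append_singleton w x ih =>
    rw [List.map_append, List.prod_append, List.map_singleton, List.prod_singleton, ih]
    simp only [ctp_snoc, zpow_add, Finset.prod_mul_distrib]
    congr 1
    rw [Finset.prod_eq_single x]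
    · rw [if_pos rfl, zpow_one]
    · intro z _ hz
      rw [if_neg (Ne.symm hz), zpow_zero]
    · intro h; exact absurd (Finset.mem_univ _) h

section main

variable {G : Type} [Group G] [Finite G]

/-- N4, induction on the number of letters with nontrivial value -/
theorem nil3_aux (hG : ∀ a b c d : G, ⁅⁅⁅a, b⁆, c⁆, d⁆ = 1) {α : Type} [Fintype α]
    [DecidableEq α] (k : ℕ) : ∀ f : α → G,
    (∃ T : Finset α, T.card ≤ k ∧ ∀ x, x ∉ T → f x = 1) →
    Kn fun w : List α => (w.map f).prod := by
  induction k with
  | zero =>
    rintro f ⟨T, hT, hf⟩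
    have hT0 : T = ∅ := Finset.card_eq_zero.1 (Nat.le_zero.1 hT)
    have h1 : (fun w : List α => (w.map f).prod) = fun _ => (1 : G) := by
      funext w
      refine List.prod_eq_one ?_
      intro y hy
      obtain ⟨x, -, rfl⟩ := List.mem_map.1 hy
      exact hf x (by rw [hT0]; exact Finset.notMem_empty x)
    rw [h1]
    exact Kn.const 1
  | succ k ih =>
    rintro f ⟨T, hT, hf⟩
    rcases T.eq_empty_or_nonempty with h0 | ⟨s, hs⟩
    · exact ih f ⟨T, by rw [h0]; exact Nat.zero_le _, hf⟩
    set f' : α → G := Function.update f s 1 with hf'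
    have hf's : f' s = 1 := Function.update_self ..
    have hf'x : ∀ x, x ≠ s → f' x = f x := fun x hx => Function.update_of_ne hx ..
    have hQ : Kn fun w : List α => (w.map f').prod := by
      apply ih
      refine ⟨T.erase s, ?_, ?_⟩
      · rw [Finset.card_erase_of_mem hs]; omega
      · intro x hx
        by_cases hxs : x = s
        · rw [hxs, hf's]
        · rw [hf'x x hxs]
          exact hf x fun h => hx (Finset.mem_erase.2 ⟨hxs, h⟩)
    let N := Nat.card G
    have hne : NeZero N := ⟨Nat.card_pos.ne'⟩
    have cA : IsMulCommutative (commutator G) :=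
      ⟨⟨fun a b => Subtype.ext (commutator_comm hG a.2 b.2)⟩⟩
    -- the central factor
    let e : α × α → Subgroup.center G := fun i => psiHom hG (f' i.2) (f' i.1) (f s)
    let M1 : α × α → List α → ℤ := fun i =>
      acc i.1 fun u => ctp (fun x => x = s) u * ctp (fun x => x = i.2) u
    have hM1 : ∀ i, e i = 1 ∨ KnZ (M1 i) := by
      rintro ⟨y, z⟩
      by_cases hy : y = s
      · left
        apply Subtype.ext
        change ⁅f' z, ⁅f s, f' y⁆⁆ = 1
        rw [hy, hf's, commutatorElement_one_right, commutatorElement_one_right]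
      · by_cases hz : z = s
        · left
          apply Subtype.ext
          change ⁅f' z, ⁅f s, f' y⁆⁆ = 1
          rw [hz, hf's, commutatorElement_one_left]
        · exact Or.inr (known_D hy hz)
    have hZ := kn_prod_zpow e M1 hM1
    -- the factor in the derived subgroup
    let c : α × ZMod N → commutator G := fun i => ⟨⁅f s ^ i.2.val, f' i.1⁆, comm_mem _ _⟩
    let M2 : α × ZMod N → List α → ℤ := fun i =>
      acc i.1 fun u => ind i.2 ((ctp (fun x => x = s) u : ℤ) : ZMod N)
    have hM2 : ∀ i, c i = 1 ∨ KnZ (M2 i) := by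
      rintro ⟨y, r⟩
      by_cases hy : y = s
      · left
        apply Subtype.ext
        change ⁅f s ^ r.val, f' y⁆ = 1
        rw [hy, hf's, commutatorElement_one_right]
      · exact Or.inr (known_acc_ind (p := fun x => x = s) hy r)
    have hC := kn_prod_zpow c M2 hM2
    -- the power of `f s`
    have hS : Kn fun w : List α => f s ^ ctp (fun x => x = s) w := by
      have h1 := (known_ctp s (α := α)) N Nat.card_pos
      have h2 := h1.comp fun t => f s ^ t.val
      refine Eq.mp (congrArg Kn ?_) h2
      funext w
      exact zpow_val N rfl (f s) _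
    have hmain : ∀ w : List α, (w.map f).prod =
        ((∏ i, e i ^ M1 i w : Subgroup.center G) : G) * ((∏ i, c i ^ M2 i w : commutator G) : G) *
          (w.map f').prod * f s ^ ctp (fun x => x = s) w := by
      intro w
      induction w using List.reverseRecOn with
      | nil =>
        have h1 : ∏ i, e i ^ M1 i [] = 1 := Finset.prod_eq_one fun i _ => by
          change e i ^ (0 : ℤ) = 1
          rw [zpow_zero]
        have h2 : ∏ i, c i ^ M2 i [] = 1 := Finset.prod_eq_one fun i _ => by
          change c i ^ (0 : ℤ) = 1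
          rw [zpow_zero]
        rw [h1, h2, ctp_nil]
        simp only [List.map_nil, List.prod_nil, OneMemClass.coe_one, mul_one, zpow_ofNat, pow_zero]
      | append_singleton w x ihw =>
        set n : ℤ := ctp (fun x => x = s) w with hn
        -- increments
        have hc : ⁅f s ^ n, f' x⁆ ∈ commutator G := comm_mem _ _
        have h1 : ∏ i, e i ^ M1 i (w ++ [x]) = (∏ i, e i ^ M1 i w) *
            chiHom ⁅f s ^ n, f' x⁆ (commutator_mem_center hG hc) (w.map f').prod := by
          have a1 : ∀ i : α × α, e i ^ M1 i (w ++ [x]) = e i ^ M1 i w *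
              (if x = i.1 then e i ^ (n * ctp (fun x => x = i.2) w) else 1) := by
            intro i
            change e i ^ (acc i.1 _ (w ++ [x])) = _
            rw [acc_snoc, zpow_add]
            split_ifs
            · rfl
            · rw [zpow_zero]
          rw [Finset.prod_congr rfl fun i _ => a1 i, Finset.prod_mul_distrib]
          congr 1
          rw [Fintype.prod_prod_type, Finset.prod_eq_single x]
          · rw [map_list_prod, List.map_map, prod_eq_ctp]
            refine Finset.prod_congr rfl fun z _ => ?_
            rw [if_pos rfl, zpow_mul]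
            congr 1
            change psiHom hG (f' z) (f' x) (f s) ^ n = _
            rw [← map_zpow]
            apply Subtype.ext
            rfl
          · intro y _ hy
            exact Finset.prod_eq_one fun z _ => if_neg (Ne.symm hy)
          · intro h; exact absurd (Finset.mem_univ _) h
        have h2 : ∏ i, c i ^ M2 i (w ++ [x]) = (∏ i, c i ^ M2 i w) *
            ⟨⁅f s ^ n, f' x⁆, hc⟩ := by
          have a1 : ∀ i : α × ZMod N, c i ^ M2 i (w ++ [x]) = c i ^ M2 i w *
              (if x = i.1 then c i ^ (ind i.2 ((n : ℤ) : ZMod N)) else 1) := by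
            intro i
            change c i ^ (acc i.1 _ (w ++ [x])) = _
            rw [acc_snoc, zpow_add]
            split_ifs
            · rfl
            · rw [zpow_zero]
          rw [Finset.prod_congr rfl fun i _ => a1 i, Finset.prod_mul_distrib]
          congr 1
          rw [Fintype.prod_prod_type, Finset.prod_eq_single x, Finset.prod_eq_single ((n : ℤ) : ZMod N)]
          · rw [if_pos rfl, ind_self, zpow_one]
            apply Subtype.ext
            change ⁅f s ^ ((n : ℤ) : ZMod N).val, f' x⁆ = ⁅f s ^ n, f' x⁆
            rw [zpow_val N rfl]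
          · intro r _ hr
            rw [if_pos rfl, ind_ne (Ne.symm hr), zpow_zero]
          · intro h; exact absurd (Finset.mem_univ _) h
          · intro y _ hy
            exact Finset.prod_eq_one fun z _ => if_neg (Ne.symm hy)
          · intro h; exact absurd (Finset.mem_univ _) h
        have h3 : f s ^ n * f x = ⁅f s ^ n, f' x⁆ * f' x * f s ^ ctp (fun x => x = s) (w ++ [x]) := by
          rw [ctp_snoc, ← hn]
          by_cases hx : x = s
          · rw [if_pos hx, hx, hf's, commutatorElement_one_right, one_mul, one_mul, zpow_add,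
              zpow_one]
          · rw [if_neg hx, hf'x x hx, add_zero, commutatorElement_def]
            group
        rw [h1, h2, Subgroup.coe_mul, Subgroup.coe_mul, chiHom_apply, List.map_append,
          List.prod_append, List.map_singleton, List.prod_singleton, List.map_append,
          List.prod_append, List.map_singleton, List.prod_singleton, ihw, mul_assoc _ (f s ^ n),
          h3]
        have hζ := commutator_mem_center hG hc (w.map f').prod
        have h4 : ⁅(w.map f').prod, ⁅f s ^ n, f' x⁆⁆ * ⁅f s ^ n, f' x⁆ * (w.map f').prod =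
            (w.map f').prod * ⁅f s ^ n, f' x⁆ := by
          rw [commutatorElement_def (w.map f').prod]; group
        have h5 := Subgroup.mem_center_iff.1 hζ
          ((∏ i, c i ^ M2 i w : commutator G) : G)
        change _ = _ * _ * (_ * ⁅f s ^ n, f' x⁆) * _ * _
        generalize ((∏ i, e i ^ M1 i w : Subgroup.center G) : G) = Zw
        generalize ((∏ i, c i ^ M2 i w : commutator G) : G) = Cw at h5 ⊢
        generalize (w.map f').prod = Qw at *
        generalize ⁅f s ^ n, f' x⁆ = cc at *
        generalize ⁅Qw, cc⁆ = ζ at *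
        generalize f s ^ ctp (fun x => x = s) (w ++ [x]) = Sn
        calc Zw * Cw * Qw * (cc * f' x * Sn) = Zw * Cw * (Qw * cc) * f' x * Sn := by
              simp only [mul_assoc]
          _ = Zw * (Cw * ζ) * cc * Qw * f' x * Sn := by rw [← h4]; simp only [mul_assoc]
          _ = Zw * ζ * (Cw * cc) * (Qw * f' x) * Sn := by rw [h5]; simp only [mul_assoc]
    have hfin := ((hZ.pair hC).pair (hQ.pair hS)).comp
      fun t => (t.1.1 : G) * (t.1.2 : G) * t.2.1 * t.2.2
    refine Eq.mp (congrArg Kn ?_) hfin
    funext w
    exact (hmain w).symm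

/-- The product of the values of the letters in a finite nilpotent group of class at most three
is determined by languages of star height one. -/
theorem nil3_known (hG : ∀ a b c d : G, ⁅⁅⁅a, b⁆, c⁆, d⁆ = 1) {α : Type} [Finite α] (f : α → G) :
    Kn fun w : List α => (w.map f).prod := by
  classical
  have := Fintype.ofFinite α
  exact nil3_aux hG (Fintype.card α) f ⟨Finset.univ, le_rfl, fun x hx =>
    absurd (Finset.mem_univ x) hx⟩

/-- the same with the lower central series -/
theorem nil3_known' (hG : Subgroup.lowerCentralSeries (⊤ : Subgroup G) 3 = ⊥) {α : Type}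
    [Finite α] (f : α → G) : Kn fun w : List α => (w.map f).prod := by
  refine nil3_known (fun a b c d => ?_) f
  have h0 : a ∈ Subgroup.lowerCentralSeries (⊤ : Subgroup G) 0 := Subgroup.mem_top a
  have h1 : ⁅a, b⁆ ∈ Subgroup.lowerCentralSeries (⊤ : Subgroup G) 1 :=
    Subgroup.commutator_mem_commutator h0 (Subgroup.mem_top b)
  have h2 : ⁅⁅a, b⁆, c⁆ ∈ Subgroup.lowerCentralSeries (⊤ : Subgroup G) 2 :=
    Subgroup.commutator_mem_commutator h1 (Subgroup.mem_top c)
  have h3 : ⁅⁅⁅a, b⁆, c⁆, d⁆ ∈ Subgroup.lowerCentralSeries (⊤ : Subgroup G) 3 :=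
    Subgroup.commutator_mem_commutator h2 (Subgroup.mem_top d)
  rw [hG] at h3
  exact Subgroup.mem_bot.1 h3

end main

end Vale.Agent.P329
end
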